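import Vale.Agent.P266.AC.Euler

/-! Derivations of finite Galois covers: generalities. -/

namespace Vale.Agent.P266.GC

open IsLocalRing Polynomial

variable {k A R G : Type*} [Field k] [CommRing A] [Algebra k A] [CommRing R] [Algebra k R]
  [Algebra A R] [IsScalarTower k A R] [Group G]

variable (k) in
/-- The elements fixed by a subgroup. -/
def fixS (ρ : G →* (R ≃ₐ[A] R)) (K : Subgroup G) : Subalgebra k R where
  carrier := {r | ∀ g ∈ K, ρ g r = r}
  mul_mem' := fun {a b} ha hb g hg => by rw [map_mul, ha g hg, hb g hg]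
  add_mem' := fun {a b} ha hb g hg => by rw [map_add, ha g hg, hb g hg]
  algebraMap_mem' := fun c g _ => by rw [IsScalarTower.algebraMap_apply k A R, AlgEquiv.commutes]

theorem mem_fixS {ρ : G →* (R ≃ₐ[A] R)} {K : Subgroup G} {r : R} :
    r ∈ fixS k ρ K ↔ ∀ g ∈ K, ρ g r = r := Iff.rfl

theorem act_algk (ρ : G →* (R ≃ₐ[A] R)) (g : G) (c : k) :
    ρ g (algebraMap k R c) = algebraMap k R c := by
  rw [IsScalarTower.algebraMap_apply k A R, AlgEquiv.commutes]

theorem act_act (ρ : G →* (R ≃ₐ[A] R)) (g h : G) (r : R) : ρ g (ρ h r) = ρ (g * h) r := by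
  rw [map_mul, AlgEquiv.mul_apply]

theorem act_inv_act (ρ : G →* (R ≃ₐ[A] R)) (g : G) (r : R) : ρ g⁻¹ (ρ g r) = r := by
  rw [act_act, inv_mul_cancel, map_one, AlgEquiv.one_apply]

theorem act_act_inv (ρ : G →* (R ≃ₐ[A] R)) (g : G) (r : R) : ρ g (ρ g⁻¹ r) = r := by
  rw [act_act, mul_inv_cancel, map_one, AlgEquiv.one_apply]

theorem exists_monic_fix [Fintype G] (ρ : G →* (R ≃ₐ[A] R)) (K : Subgroup G) (r : R) :
    ∃ f : (fixS k ρ K)[X], f.Monic ∧ aeval r f = 0 := by
  classical
  rcases subsingleton_or_nontrivial R with h | h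
  · exact ⟨1, monic_one, Subsingleton.elim _ _⟩
  let p : R[X] := ∏ g : K, (X - C (ρ g r))
  have hp : p.Monic := monic_prod_of_monic _ _ (fun g _ => monic_X_sub_C _)
  have hl : p ∈ lifts (algebraMap (fixS k ρ K) R) := by
    rw [lifts_iff_coeff_lifts]
    intro j
    refine ⟨⟨p.coeff j, fun g hg => ?_⟩, rfl⟩
    have e : p.map (ρ g : R →+* R) = p := by
      simp only [p, Polynomial.map_prod, Polynomial.map_sub, map_X, map_C]
      refine Fintype.prod_equiv (Equiv.mulLeft (⟨g, hg⟩ : K)) _ _ (fun h => ?_)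
      change X - C (ρ g (ρ h r)) = _
      rw [act_act]
      rfl
    conv_rhs => rw [← e, coeff_map]
    rfl
  obtain ⟨q, hq, -, hqm⟩ := lifts_and_degree_eq_and_monic hl hp
  refine ⟨q, hqm, ?_⟩
  rw [← eval_map_algebraMap, hq]
  simp only [p, eval_prod]
  exact Finset.prod_eq_zero (Finset.mem_univ (1 : K)) (by simp)

theorem der_aeval (S : Subalgebra k R) (δ : Derivation k R R) (J : Ideal R)
    (hS : ∀ c ∈ S, δ c ∈ J) (r : R) (f : S[X]) :
    δ (aeval r f) - aeval r f.derivative * δ r ∈ J := by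
  induction f using Polynomial.induction_on' with
  | add f g hf hg =>
    simp only [map_add, add_mul]
    rw [add_sub_add_comm]
    exact add_mem hf hg
  | monomial j c =>
    rw [derivative_monomial, aeval_monomial, aeval_monomial, δ.leibniz, δ.leibniz_pow,
      smul_eq_mul, smul_eq_mul, nsmul_eq_mul, smul_eq_mul]
    have e : algebraMap S R c * ((j : R) * (r ^ (j - 1) * δ r)) + r ^ j * δ (algebraMap S R c)
        - algebraMap S R (c * (j : S)) * r ^ (j - 1) * δ r
        = r ^ j * δ (algebraMap S R c) := by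
      rw [map_mul, map_natCast]; ring
    rw [e]
    exact Ideal.mul_mem_left _ _ (hS _ c.2)

/-- A derivation which sends `S` into `J` sends into `J` every element integral over `S`,
modulo a prime `Q` such that `J` is `Q`-saturated. -/
theorem der_mem [CharZero k] (S : Subalgebra k R) (δ : Derivation k R R) (Q J : Ideal R)
    [hQ : Q.IsPrime] (hS : ∀ c ∈ S, δ c ∈ J) (r : R)
    (hex : ∃ f : S[X], f.Monic ∧ aeval r f ∈ Q)
    (hQJ : ∀ f : S[X], aeval r f ∈ Q → δ (aeval r f) ∈ J)
    (hprim : ∀ a x : R, a ∉ Q → a * x ∈ J → x ∈ J) : δ r ∈ J := by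
  classical
  have hex' : ∃ m, ∃ f : S[X], f.Monic ∧ f.natDegree = m ∧ aeval r f ∈ Q :=
    let ⟨f, hf, hr⟩ := hex; ⟨_, f, hf, rfl, hr⟩
  obtain ⟨f, hf, hfm, hfr⟩ := Nat.find_spec hex'
  rcases Nat.eq_zero_or_pos f.natDegree with h0 | hpos
  · exfalso
    rw [hf.natDegree_eq_zero.1 h0, map_one] at hfr
    exact hQ.ne_top (Q.eq_top_iff_one.2 hfr)
  set m := f.natDegree with hm
  let u : k := (m : k)⁻¹
  let g : S[X] := C (algebraMap k S u) * f.derivative
  have hu : algebraMap k R u * (m : R) = 1 := by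
    rw [← map_natCast (algebraMap k R), ← map_mul, inv_mul_cancel₀ (Nat.cast_ne_zero.2 (by omega)),
      map_one]
  have hgm : g.Monic := by
    refine monic_of_natDegree_le_of_coeff_eq_one (m - 1)
      ((natDegree_C_mul_le _ _).trans (natDegree_derivative_le f)) ?_
    rw [coeff_C_mul, coeff_derivative, Nat.sub_add_cancel hpos, hf.coeff_natDegree, one_mul]
    refine Subtype.ext ?_
    have : ((m - 1 : ℕ) : R) + 1 = (m : R) := by
      rw [← Nat.cast_add_one, Nat.sub_add_cancel hpos]
    push_cast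
    rw [this]
    simpa using hu
  have hgd : g.natDegree < Nat.find hex' := by
    rw [← hfm]
    refine lt_of_le_of_lt ((natDegree_C_mul_le _ _).trans (natDegree_derivative_le f)) ?_
    omega
  have hgr : aeval r g ∉ Q := fun h => Nat.find_min hex' hgd ⟨g, hgm, rfl, h⟩
  have h1 : aeval r f.derivative * δ r ∈ J := by
    have := sub_mem (hQJ f hfr) (der_aeval S δ J hS r f)
    rwa [sub_sub_cancel] at this
  refine hprim (aeval r g) _ hgr ?_
  simp only [g, map_mul, aeval_C, mul_assoc]
  exact Ideal.mul_mem_left _ _ h1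

/-- Intersection theorem, relative to an ideal. -/
theorem mem_of_forall_mem_sup_pow [IsNoetherianRing R] [IsLocalRing R] {J M : Ideal R}
    (hM : M ≤ maximalIdeal R) {x : R} (h : ∀ j : ℕ, x ∈ J ⊔ M ^ j) : x ∈ J := by
  rcases eq_or_ne J ⊤ with rfl | hJ
  · trivial
  have : Nontrivial (R ⧸ J) := Ideal.Quotient.nontrivial_iff.2 hJ
  have : IsLocalRing (R ⧸ J) :=
    IsLocalRing.of_surjective' (Ideal.Quotient.mk J) Ideal.Quotient.mk_surjective
  rw [← Ideal.Quotient.eq_zero_iff_mem]
  have hne : M.map (Ideal.Quotient.mk J) ≠ ⊤ := by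
    intro e
    have := congr_arg (Ideal.comap (Ideal.Quotient.mk J)) e
    rw [Ideal.comap_map_of_surjective _ Ideal.Quotient.mk_surjective, Ideal.comap_top,
      ← RingHom.ker_eq_comap_bot, Ideal.mk_ker] at this
    exact (IsLocalRing.maximalIdeal.isMaximal R).ne_top
      (top_le_iff.1 (this ▸ sup_le hM (IsLocalRing.le_maximalIdeal hJ)))
  have hm : Ideal.Quotient.mk J x ∈ ⨅ j : ℕ, M.map (Ideal.Quotient.mk J) ^ j := by
    refine Ideal.mem_iInf.2 (fun j => ?_)
    rw [← Ideal.map_pow]
    have := Ideal.mem_map_of_mem (Ideal.Quotient.mk J) (h j)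
    rwa [Ideal.map_sup, Ideal.map_quotient_self, bot_sup_eq] at this
  rwa [Ideal.iInf_pow_eq_bot_of_isLocalRing _ hne] at hm

/-- A derivation from a local ring with residue field `k` is controlled by its values on
generators of the maximal ideal. -/
theorem der_mem_of_gens [IsLocalRing A] [IsNoetherianRing R] [IsLocalRing R] {ι : Type*}
    [Fintype ι] (y : ι → A) (hy : Ideal.span (Set.range y) = maximalIdeal A)
    (hres : ∀ a : A, ∃ c : k, a - algebraMap k A c ∈ maximalIdeal A)
    (hloc : ∀ a ∈ maximalIdeal A, algebraMap A R a ∈ maximalIdeal R)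
    (D : Derivation k A R) (J : Ideal R) (hD : ∀ i, D (y i) ∈ J) (a : A) : D a ∈ J := by
  set M : Ideal R := (maximalIdeal A).map (algebraMap A R)
  have key : ∀ (j : ℕ) (a : A), D a ∈ J ⊔ M ^ j := by
    intro j
    induction j with
    | zero => intro a; simp
    | succ j ih =>
      intro a
      obtain ⟨c, hc⟩ := hres a
      obtain ⟨e, he⟩ := Ideal.mem_span_range_iff_exists_fun.1 (hy ▸ hc)
      have : D a = D (a - algebraMap k A c) := by
        rw [map_sub, D.map_algebraMap, sub_zero]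
      rw [this, ← he, map_sum]
      refine Submodule.sum_mem _ (fun i _ => ?_)
      rw [D.leibniz, Algebra.smul_def, Algebra.smul_def]
      refine add_mem (Submodule.mem_sup_left (Ideal.mul_mem_left _ _ (hD i))) ?_
      obtain ⟨u, hu, v, hv, huv⟩ := Submodule.mem_sup.1 (ih (e i))
      rw [← huv, mul_add]
      refine Submodule.add_mem_sup (Ideal.mul_mem_left _ _ hu) ?_
      rw [pow_succ']
      exact Ideal.mul_mem_mul (Ideal.mem_map_of_mem _ (hy ▸ Ideal.subset_span ⟨i, rfl⟩)) hv
  exact mem_of_forall_mem_sup_pow (M := M) (Ideal.map_le_iff_le_comap.2 hloc) (fun j => key j a)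

end Vale.Agent.P266.GC
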