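import Vale.Agent.P266.GC.Trace

/-! The residue field and an equivariant frame of derivations. -/

namespace Vale.Agent.P266.GC

open IsLocalRing Polynomial Vale.Agent.P266.AC

variable {k A R G : Type*} [Field k] [CharZero k] [CommRing A] [IsDomain A] [IsLocalRing A]
  [IsNoetherianRing A] [Algebra k A] [CommRing R] [IsDomain R] [IsLocalRing R] [Algebra k R]
  [Algebra A R] [IsScalarTower k A R] [Group G] [Fintype G] {ρ : G →* (R ≃ₐ[A] R)} {n : ℕ}

/-- Conjugation of a derivation. -/
noncomputable def conj (ρ : G →* (R ≃ₐ[A] R)) (g : G) (δ : Derivation k R R) :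
    Derivation k R R :=
  Derivation.mk'
    ((((ρ g).toAlgHom.restrictScalars k).toLinearMap).comp
      ((δ : R →ₗ[k] R).comp (((ρ g⁻¹).toAlgHom.restrictScalars k).toLinearMap)))
    (fun a b => by
      change ρ g (δ (ρ g⁻¹ (a * b))) = a • ρ g (δ (ρ g⁻¹ b)) + b • ρ g (δ (ρ g⁻¹ a))
      simp only [map_mul (ρ g⁻¹), δ.leibniz, smul_eq_mul, map_add, map_mul (ρ g), act_act_inv])

omit [CharZero k] [IsDomain A] [IsLocalRing A] [IsNoetherianRing A] [IsDomain R] [IsLocalRing R]
  [Fintype G] in
theorem conj_apply (g : G) (δ : Derivation k R R) (r : R) :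
    conj ρ g δ r = ρ g (δ (ρ g⁻¹ r)) := rfl

theorem Cov.local_hom (H : Cov ρ) (a : A) (ha : a ∈ maximalIdeal A) :
    algebraMap A R a ∈ maximalIdeal R := by
  intro hu
  obtain ⟨r, hr⟩ := hu.exists_right_inv
  obtain ⟨a', rfl⟩ := H.fixed r (fun g => by
    refine mul_left_cancel₀ hu.ne_zero ?_
    rw [hr]
    conv_rhs => rw [← map_one (ρ g), ← hr, map_mul, AlgEquiv.commutes])
  exact ha (IsUnit.of_mul_eq_one _ (H.inj (by rw [map_mul, hr, map_one])))

theorem Cov.exists_res [IsAlgClosed k] [Module.Finite A R] (H : Cov ρ) (C : Chart k A n) (r : R) :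
    ∃ c : k, r - algebraMap k R c ∈ maximalIdeal R := by
  classical
  let K := ResidueField R
  obtain ⟨s, hs⟩ := (Module.Finite.fg_top : (⊤ : Submodule A R).FG)
  have hfin : Module.Finite k K := by
    refine ⟨⟨s.image (residue R), ?_⟩⟩
    rw [eq_top_iff]
    intro x _
    obtain ⟨r, rfl⟩ := residue_surjective x
    have hr : r ∈ Submodule.span A (s : Set R) := hs ▸ Submodule.mem_top
    refine Submodule.span_induction (p := fun r _ =>
      residue R r ∈ Submodule.span k (↑(s.image (residue R)) : Set K)) ?_ ?_ ?_ ?_ hr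
    · exact fun y hy => Submodule.subset_span (Finset.mem_coe.2 (Finset.mem_image_of_mem _ hy))
    · simp
    · intro a b _ _ ha hb; rw [map_add]; exact add_mem ha hb
    · intro a y _ hy
      obtain ⟨c, hc⟩ := C.res a
      have e : residue R (a • y) = c • residue R y := by
        rw [Algebra.smul_def a y, map_mul, Algebra.smul_def c]
        congr 1
        rw [← sub_eq_zero]
        have h1 : residue R (algebraMap A R (a - algebraMap k A c)) = 0 := by
          rw [residue_eq_zero_iff]
          exact H.local_hom _ hc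
        rw [map_sub, map_sub, ← IsScalarTower.algebraMap_apply] at h1
        exact h1
      rw [e]
      exact Submodule.smul_mem _ c hy
  obtain ⟨c, hc⟩ := (IsAlgClosed.algebraMap_bijective_of_isIntegral (k := k) (K := K)).2
    (residue R r)
  refine ⟨c, (residue_eq_zero_iff _).1 ?_⟩
  rw [map_sub, sub_eq_zero, ← hc]
  rfl

omit [CharZero k] [IsDomain R] in
theorem res_unique {c c' : k} {r : R} (h : r - algebraMap k R c ∈ maximalIdeal R)
    (h' : r - algebraMap k R c' ∈ maximalIdeal R) : c = c' := by
  by_contra hne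
  have := sub_mem h h'
  rw [sub_sub_sub_cancel_left, ← map_sub] at this
  exact this ((IsUnit.mk0 _ (sub_ne_zero.2 (Ne.symm hne))).map (algebraMap k R))

theorem der_kill_fixed (hfix : ∀ r : R, (∀ g, ρ g r = r) → ∃ a : A, algebraMap A R a = r)
    (δ : Derivation k R R) (h : ∀ a, δ (algebraMap A R a) = 0) : δ = 0 := by
  ext r
  have := GC.der_mem (fixS k ρ ⊤) δ ⊥ ⊥ (fun c hc => by
      obtain ⟨b, rfl⟩ := hfix c (fun g => hc g (Subgroup.mem_top g))
      rw [h]; exact zero_mem _) r ?_ (fun f hf => by
      rw [Ideal.mem_bot] at hf ⊢; rw [hf, map_zero])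
    (fun a x ha hx => by
      rw [Ideal.mem_bot] at ha hx ⊢
      exact (mul_eq_zero.1 hx).resolve_left ha)
  · simpa using this
  · obtain ⟨f, hf, hfr⟩ := exists_monic_fix (k := k) ρ ⊤ r
    exact ⟨f, hf, hfr ▸ zero_mem _⟩

theorem Cov.der_kill (H : Cov ρ) (δ : Derivation k R R) (h : ∀ a, δ (algebraMap A R a) = 0) :
    δ = 0 :=
  der_kill_fixed H.fixed δ h

theorem Cov.eq_zero_of_chart [IsNoetherianRing R] (H : Cov ρ) (C : Chart k A n)
    (δ : Derivation k R R) (h : ∀ i, δ (algebraMap A R (C.x i)) = 0) : δ = 0 :=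
  H.der_kill δ (fun a => by
    have := der_mem_of_gens (A := A) C.x C.span_x C.res H.local_hom (δ.compAlgebraMap A) ⊥
      (fun i => by
        rw [Ideal.mem_bot]
        exact h i) a
    rw [Ideal.mem_bot] at this
    exact this)

theorem Cov.exists_basis [IsNoetherianRing R] [Module.Free R (Derivation k R R)] (H : Cov ρ)
    (C : Chart k A n) : Nonempty (Module.Basis (Fin n) R (Derivation k R R)) := by
  classical
  let f : Derivation k R R →ₗ[R] (Fin n → R) :=
    { toFun := fun δ i => δ (algebraMap A R (C.x i))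
      map_add' := fun _ _ => rfl
      map_smul' := fun _ _ => rfl }
  have hf : Function.Injective f :=
    (injective_iff_map_eq_zero f).2 (fun δ hδ => H.eq_zero_of_chart C δ (fun i => congr_fun hδ i))
  haveI : Module.Finite R (Derivation k R R) := Module.Finite.of_injective f hf
  choose E a ha hE using fun l => H.exists_extend (C.d l)
  let g : (Fin n → R) →ₗ[R] Derivation k R R :=
    { toFun := fun c => ∑ l, c l • E l
      map_add' := fun c c' => by simp only [Pi.add_apply, add_smul, Finset.sum_add_distrib]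
      map_smul' := fun t c => by
        simp only [Pi.smul_apply, smul_eq_mul, mul_smul, Finset.smul_sum, RingHom.id_apply] }
  have hg : Function.Injective g := (injective_iff_map_eq_zero g).2 (fun c hc => funext fun j => by
    have h1 := Derivation.congr_fun hc (algebraMap A R (C.x j))
    change (∑ l, c l • E l) _ = _ at h1
    rw [der_sum_apply, Derivation.zero_apply] at h1
    simp only [hE, C.dual, mul_ite, mul_one, mul_zero, apply_ite (algebraMap A R), map_zero,
      Finset.sum_ite_eq', Finset.mem_univ, if_true] at h1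
    exact (mul_eq_zero.1 h1).resolve_right ((map_ne_zero_iff _ H.inj).2 (ha j)))
  have h1 : Module.finrank R (Derivation k R R) = n := by
    refine le_antisymm ?_ ?_
    · simpa using LinearMap.finrank_le_finrank_of_injective hf
    · simpa using LinearMap.finrank_le_finrank_of_injective hg
  exact ⟨(Module.finBasisOfFinrankEq R (Derivation k R R) h1)⟩

omit [CharZero k] in
theorem repr_mem {B : Module.Basis (Fin n) R (Derivation k R R)} {d : Derivation k R R}
    (hd : d ∈ maximalIdeal R • (⊤ : Submodule R (Derivation k R R))) (j : Fin n) :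
    B.repr d j ∈ maximalIdeal R := by
  refine Submodule.smul_induction_on hd (fun r hr m _ => ?_) (fun x y hx hy => ?_)
  · rw [map_smul, Finsupp.smul_apply, smul_eq_mul]; exact Ideal.mul_mem_right _ _ hr
  · rw [map_add, Finsupp.add_apply]; exact add_mem hx hy

/-- An equivariant frame: the group acts through a matrix representation over `k`. -/
theorem Cov.exists_frame [IsAlgClosed k] [IsNoetherianRing R] [Module.Finite A R]
    [Module.Free R (Derivation k R R)] (H : Cov ρ) (C : Chart k A n) :
    ∃ (δ : Module.Basis (Fin n) R (Derivation k R R)) (M : G → Matrix (Fin n) (Fin n) k),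
      M 1 = 1 ∧ (∀ g h, M (g * h) = M h * M g) ∧
      ∀ g i, conj ρ g (δ i) = ∑ j, algebraMap k R (M g i j) • δ j := by
  classical
  obtain ⟨B⟩ := H.exists_basis C
  let r : G → Fin n → Fin n → R := fun g i j => B.repr (conj ρ g (B i)) j
  obtain ⟨M, hM⟩ : ∃ M : G → Matrix (Fin n) (Fin n) k,
      ∀ g i j, r g i j - algebraMap k R (M g i j) ∈ maximalIdeal R :=
    ⟨fun g => Matrix.of fun i j => (H.exists_res C (r g i j)).choose,
      fun g i j => (H.exists_res C (r g i j)).choose_spec⟩
  have hr : ∀ g i, conj ρ g (B i) = ∑ j, r g i j • B j := fun g i => (B.sum_repr _).symm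
  have conj_smul : ∀ (g : G) (a : R) (d : Derivation k R R),
      conj ρ g (a • d) = ρ g a • conj ρ g d := fun g a d => by
    ext x; simp [conj_apply]
  have conj_sum : ∀ (g : G) (f : Fin n → Derivation k R R),
      conj ρ g (∑ i, f i) = ∑ i, conj ρ g (f i) := fun g f => by
    ext x
    simp only [conj_apply, ← Derivation.coeFnAddMonoidHom_apply, map_sum, Finset.sum_apply]
    rfl
  have conj_mul : ∀ (g h : G) (d : Derivation k R R), conj ρ (g * h) d = conj ρ g (conj ρ h d) :=
    fun g h d => by
      ext x
      simp only [conj_apply, mul_inv_rev, act_act]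
  have conj_one : ∀ d : Derivation k R R, conj ρ (1 : G) d = d := fun d => by
    ext x; simp [conj_apply]
  have M1 : M 1 = 1 := by
    ext i j
    refine res_unique (R := R) (hM 1 i j) ?_
    have : r 1 i j = algebraMap k R ((1 : Matrix (Fin n) (Fin n) k) i j) := by
      simp only [r, conj_one, Module.Basis.repr_self, Finsupp.single_apply, Matrix.one_apply]
      split <;> simp
    rw [this, sub_self]; exact zero_mem _
  have Mmul : ∀ g h, M (g * h) = M h * M g := by
    intro g h
    ext i l
    refine res_unique (R := R) (hM (g * h) i l) ?_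
    have : r (g * h) i l = ∑ j, ρ g (r h i j) * r g j l := by
      simp only [r, conj_mul]
      conv_lhs => rw [hr h i, conj_sum]
      simp only [conj_smul, map_sum, map_smul, Finsupp.finsetSum_apply, Finsupp.smul_apply,
        smul_eq_mul]
      rfl
    rw [this, Matrix.mul_apply, map_sum, ← Finset.sum_sub_distrib]
    refine Submodule.sum_mem _ (fun j _ => ?_)
    have e : ρ g (r h i j) * r g j l - algebraMap k R (M h i j * M g j l)
        = ρ g (r h i j - algebraMap k R (M h i j)) * r g j l
          + algebraMap k R (M h i j) * (r g j l - algebraMap k R (M g j l)) := by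
      rw [map_sub, act_algk, map_mul]; ring
    rw [e]
    exact add_mem (Ideal.mul_mem_right _ _ (act_max g (hM h i j))) (Ideal.mul_mem_left _ _ (hM g j l))
  set u : k := (Fintype.card G : k)⁻¹ with hu
  let δ' : Fin n → Derivation k R R := fun i =>
    ∑ g : G, ∑ j, algebraMap k R (u * M g⁻¹ i j) • conj ρ g (B j)
  have hrep : ∀ i l, B.repr (δ' i) l - algebraMap k R ((1 : Matrix (Fin n) (Fin n) k) i l)
      ∈ maximalIdeal R := by
    intro i l
    have e1 : B.repr (δ' i) l = ∑ g : G, ∑ j, algebraMap k R (u * M g⁻¹ i j) * r g j l := by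
      simp only [δ', r, map_sum, map_smul, Finsupp.finsetSum_apply, Finsupp.smul_apply, smul_eq_mul]
    have e2 : (1 : Matrix (Fin n) (Fin n) k) i l = ∑ g : G, ∑ j, u * M g⁻¹ i j * M g j l := by
      have : ∀ g : G, ∑ j, u * M g⁻¹ i j * M g j l = u * (1 : Matrix (Fin n) (Fin n) k) i l :=
        fun g => by
          rw [← M1, ← mul_inv_cancel g, Mmul, Matrix.mul_apply, Finset.mul_sum]
          simp only [mul_assoc]
      simp only [this, Finset.sum_const, Finset.card_univ, nsmul_eq_mul]
      rw [← mul_assoc, hu, mul_inv_cancel₀ (Nat.cast_ne_zero.2 Fintype.card_ne_zero), one_mul]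
    rw [e1, e2, map_sum, ← Finset.sum_sub_distrib]
    refine Submodule.sum_mem _ (fun g _ => ?_)
    rw [map_sum, ← Finset.sum_sub_distrib]
    refine Submodule.sum_mem _ (fun j _ => ?_)
    rw [map_mul _ (u * M g⁻¹ i j), ← mul_sub]
    exact Ideal.mul_mem_left _ _ (hM g j l)
  have hdet : IsUnit (B.det δ') := by
    rw [Module.Basis.det_apply, ← notMem_maximalIdeal, ← residue_eq_zero_iff, RingHom.map_det]
    have : (residue R).mapMatrix (B.toMatrix δ') = 1 := by
      ext l i
      simp only [RingHom.mapMatrix_apply, Matrix.map_apply, Module.Basis.toMatrix_apply]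
      have h := (residue_eq_zero_iff _).2 (hrep i l)
      rw [map_sub, sub_eq_zero] at h
      rw [h, Matrix.one_apply, Matrix.one_apply]
      by_cases hil : i = l
      · rw [if_pos hil, if_pos hil.symm, map_one, map_one]
      · rw [if_neg hil, if_neg (Ne.symm hil), map_zero, map_zero]
    rw [this, Matrix.det_one]
    exact one_ne_zero
  obtain ⟨hli, hsp⟩ := B.is_basis_iff_det.2 hdet
  refine ⟨Module.Basis.mk hli hsp.ge, M, M1, Mmul, fun h i => ?_⟩
  simp only [Module.Basis.coe_mk]
  simp only [δ']
  have conj_algk : ∀ (g : G) (c : k) (d : Derivation k R R),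
      conj ρ g (algebraMap k R c • d) = algebraMap k R c • conj ρ g d := fun g c d => by
    rw [conj_smul, act_algk]
  have conj_sumG : ∀ (g : G) (f : G → Derivation k R R),
      conj ρ g (∑ x, f x) = ∑ x, conj ρ g (f x) := fun g f => by
    ext x
    simp only [conj_apply, ← Derivation.coeFnAddMonoidHom_apply, map_sum, Finset.sum_apply]
    rfl
  simp only [conj_sumG, conj_sum, conj_algk, ← conj_mul, Finset.smul_sum]
  rw [Finset.sum_comm (γ := G)]
  conv_rhs => rw [Finset.sum_comm (γ := Fin n) (α := G)]
  rw [Finset.sum_comm]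
  refine Fintype.sum_equiv (Equiv.mulLeft h) _ _ (fun g => ?_)
  rw [Finset.sum_comm]
  refine Finset.sum_congr rfl (fun j _ => ?_)
  simp only [Equiv.coe_mulLeft, smul_smul, ← map_mul, ← Finset.sum_smul, ← map_sum]
  congr 2
  rw [show g⁻¹ = (h * g)⁻¹ * h by group, Mmul, Matrix.mul_apply, Finset.mul_sum]
  exact Finset.sum_congr rfl (fun l _ => by ring)

end Vale.Agent.P266.GC
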