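import Vale.Agent.P266.GC.Inertia

/-! Integrality of extended derivations, and the action of inertia on the tangent module. -/

namespace Vale.Agent.P266.GC

open IsLocalRing Polynomial Vale.Agent.P266.AC

theorem der_sum_apply {S K : Type*} [CommRing S] [CommRing K] [Algebra K S] {ι : Type*}
    (s : Finset ι) (c : ι → S) (D : ι → Derivation K S S) (a : S) :
    (∑ i ∈ s, c i • D i) a = ∑ i ∈ s, c i * D i a := by
  rw [← Derivation.coeFnAddMonoidHom_apply, map_sum]
  simp

variable {k A R G : Type*} [Field k] [CharZero k] [CommRing A] [Algebra k A] [CommRing R]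
  [IsDomain R] [Algebra k R] [Algebra A R] [IsScalarTower k A R] [Group G] [Fintype G]
  {ρ : G →* (R ≃ₐ[A] R)} {P : Ideal R} [P.IsPrime] {π : R} (U : Unif P π)

theorem Unif.exists_exact (K : Subgroup G) (E : Derivation k R R) {μ : ℕ}
    (hμ : ∀ r, E r ∈ U.pw μ) (hr : ∃ r, E r ∉ U.pw (μ + 1))
    (hK : ∀ c ∈ fixS k ρ K, E c ∈ U.pw (μ + 1)) : U.eq μ (E π) := by
  obtain ⟨q, hq, hEq⟩ : ∃ q ∈ P, E q ∉ U.pw (μ + 1) := by
    by_contra hne
    push Not at hne
    obtain ⟨r, hr⟩ := hr
    refine hr (GC.der_mem (fixS k ρ K) E P (U.pw (μ + 1)) hK r ?_ (fun f hf => hne _ hf)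
      (fun a x ha hx => U.prim ha hx))
    obtain ⟨f, hf, hfr⟩ := exists_monic_fix (k := k) ρ K r
    exact ⟨f, hf, hfr ▸ P.zero_mem⟩
  have hq1 : q ∈ U.pw 1 := by rwa [U.pw_one]
  obtain ⟨t, u, ht, hu, h⟩ := U.eq_of_mem hq1 (fun h => hEq (U.der_mem E hμ (m := 1) h))
  rw [pow_one] at h
  have e : u * E π = t * E q + (q * E t - π * E u) := by
    have := congr_arg E h
    rw [E.leibniz, E.leibniz, smul_eq_mul, smul_eq_mul, smul_eq_mul, smul_eq_mul] at this
    linear_combination -this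
  have h2 : U.eq μ (u * E π) := by
    rw [e]
    have h1 := (U.eq_zero_iff.2 ht).mul U (U.eq_of_mem (hμ q) hEq)
    rw [zero_add] at h1
    refine h1.add U (sub_mem ?_ ?_) <;> rw [Nat.add_comm μ 1]
    · exact U.mul_mem_pw hq1 (hμ t)
    · exact U.mul_mem_pw (U.eq_self.mem U) (hμ u)
  exact U.eq_of_mem (U.prim hu (h2.mem U)) (fun hh => h2.not_mem U (Ideal.mul_mem_left _ _ hh))

theorem Unif.normalize [IsNoetherianRing R] (E : Derivation k R R) {μ : ℕ}
    (hμ : ∀ r, E r ∈ U.pw μ) :
    ∃ (E' : Derivation k R R) (t : R), t ∉ P ∧ ∀ r, π ^ μ * E' r = t * E r := by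
  classical
  obtain ⟨S, hS⟩ := (IsNoetherian.noetherian (Ideal.span (Set.range E)) :
    (Ideal.span (Set.range E)).FG)
  have hle : Ideal.span (Set.range E) ≤ U.pw μ := by
    rw [Ideal.span_le]; rintro _ ⟨r, rfl⟩; exact hμ r
  have hc : ∀ y : R, ∃ t, t ∉ P ∧ (y ∈ S → π ^ μ ∣ t * y) := fun y => by
    by_cases hy : y ∈ S
    · obtain ⟨t, ht, h⟩ := hle (hS ▸ Submodule.subset_span hy)
      exact ⟨t, ht, fun _ => h⟩
    · exact ⟨1, U.one_notMem, fun h => absurd h hy⟩
  choose tf htf htf' using hc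
  set t := ∏ y ∈ S, tf y with htdef
  have ht : t ∉ P := fun h => by
    obtain ⟨y, _, hy⟩ := (Ideal.IsPrime.prod_mem_iff).1 h
    exact htf y hy
  have hdvd : ∀ r, π ^ μ ∣ t * E r := by
    intro r
    have hmem : E r ∈ Submodule.span R (S : Set R) := hS ▸ Ideal.subset_span ⟨r, rfl⟩
    refine Submodule.span_induction (p := fun y _ => π ^ μ ∣ t * y) ?_ ?_ ?_ ?_ hmem
    · intro y hy
      rw [htdef, ← Finset.mul_prod_erase S tf hy, mul_right_comm]
      exact (htf' y hy).mul_right _
    · simp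
    · intro a b _ _ ha hb; rw [mul_add]; exact dvd_add ha hb
    · intro c a _ ha; rw [smul_eq_mul, mul_left_comm]; exact ha.mul_left c
  choose w hw using hdvd
  have hc0 : π ^ μ ≠ 0 := pow_ne_zero _ U.ne
  refine ⟨Derivation.mk'
    { toFun := w
      map_add' := fun a b => mul_left_cancel₀ hc0 (by rw [← hw, mul_add, ← hw, ← hw, map_add, mul_add])
      map_smul' := fun c a => mul_left_cancel₀ hc0 (by
        rw [← hw, E.map_smul, RingHom.id_apply, mul_smul_comm, mul_smul_comm, hw]) }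
    (fun a b => mul_left_cancel₀ hc0 ?_), t, ht, fun r => (hw r).symm⟩
  simp only [LinearMap.coe_mk, AddHom.coe_mk, smul_eq_mul]
  rw [← hw, E.leibniz, smul_eq_mul, smul_eq_mul]
  linear_combination a * hw b + b * hw a

theorem Unif.exists_min (E : Derivation k R R) {r0 : R} {j : ℕ} (h0 : E r0 ∉ U.pw (j + 1)) :
    ∃ μ ≤ j, (∀ r, E r ∈ U.pw μ) ∧ ∃ r, E r ∉ U.pw (μ + 1) := by
  classical
  have hex : ∃ μ, ∃ r, E r ∉ U.pw (μ + 1) := ⟨j, r0, h0⟩
  refine ⟨Nat.find hex, Nat.find_min' hex ⟨r0, h0⟩, fun r => ?_, Nat.find_spec hex⟩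
  by_contra hr
  rcases Nat.eq_zero_or_pos (Nat.find hex) with h | h
  · exact hr (by rw [h, U.pw_zero]; trivial)
  · exact Nat.find_min hex (Nat.sub_lt h Nat.one_pos) ⟨r, by rwa [Nat.sub_add_cancel h]⟩

theorem algebraMap_notMem {p : A} (hP : P.comap (algebraMap A R) = Ideal.span {p}) {b : A}
    (hb : ¬ p ∣ b) : algebraMap A R b ∉ P := fun h =>
  hb (Ideal.mem_span_singleton.1 (hP ▸ (show b ∈ P.comap (algebraMap A R) from h)))

variable [IsDomain A] [IsLocalRing A] [IsNoetherianRing A] {n : ℕ} (C : Chart k A n)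
include C U in
theorem Unif.exists_unit [IsNoetherianRing R] (H : Cov ρ) {p : A} (hp : Prime p)
    (hP : P.comap (algebraMap A R) = Ideal.span {p})
    (δ : Module.Basis (Fin n) R (Derivation k R R)) : ∃ i, δ i π ∉ P := by
  classical
  have hl : ∃ l, ¬ p ∣ C.d l p := by
    by_contra hall
    push Not at hall
    have hle : Ideal.span {p} ≤ maximalIdeal A := by
      rw [Ideal.span_le, Set.singleton_subset_iff]; exact hp.not_isUnit
    refine hp.ne_zero (Ideal.span_singleton_eq_bot.1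
      (C.eq_bot_of_invariant _ hle (fun l f hf => ?_)))
    obtain ⟨c, rfl⟩ := Ideal.mem_span_singleton.1 hf
    rw [(C.d l).leibniz, smul_eq_mul, smul_eq_mul]
    refine Ideal.mem_span_singleton.2 (dvd_add (dvd_mul_right _ _) ?_)
    exact (hall l).mul_left c
  obtain ⟨l, hl⟩ := hl
  obtain ⟨E, a, ha, hE⟩ := H.exists_extend (C.d l)
  have ha' : algebraMap A R a ≠ 0 := (map_ne_zero_iff _ H.inj).2 ha
  obtain ⟨va, hva⟩ := U.exists_eq ha'
  have hd := hva.mul U (U.eq_zero_iff.2 (algebraMap_notMem hP hl))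
  rw [← map_mul, ← hE, add_zero] at hd
  have hpP : algebraMap A R p ∈ U.pw 1 := by
    rw [U.pw_one]
    change p ∈ P.comap (algebraMap A R)
    rw [hP]; exact Ideal.mem_span_singleton_self p
  obtain ⟨μ, hle, hall, hex⟩ := U.exists_min E (hd.not_mem U)
  have hex' : U.eq μ (E π) := by
    rcases Nat.lt_or_ge μ va with h | h
    · refine U.exists_exact (ρ := ρ) ⊤ E hall hex (fun c hc => ?_)
      obtain ⟨b, rfl⟩ := H.fixed c (fun g => hc g (Subgroup.mem_top g))
      rw [hE, map_mul]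
      exact U.pw_mono h (Ideal.mul_mem_right _ _ (hva.mem U))
    · obtain rfl : μ = va := le_antisymm hle h
      obtain ⟨e, he⟩ := U.exists_eq ((map_ne_zero_iff _ H.inj).2 hp.ne_zero)
      have h1 : 1 ≤ e := he.le U hpP
      have h2 : ¬ 2 ≤ e := fun h2 =>
        hd.not_mem U (U.der_mem E hall (m := 1) (U.pw_mono h2 (he.mem U)))
      obtain rfl : e = 1 := by omega
      obtain ⟨t, u, ht, hu, htu⟩ := he
      rw [pow_one] at htu
      have e : u * E π = t * E (algebraMap A R p) + (algebraMap A R p * E t - π * E u) := by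
        have := congr_arg E htu
        rw [E.leibniz, E.leibniz, smul_eq_mul, smul_eq_mul, smul_eq_mul, smul_eq_mul] at this
        linear_combination -this
      have h3 := (U.eq_zero_iff.2 ht).mul U hd
      rw [zero_add] at h3
      have h4 : algebraMap A R p * E t - π * E u ∈ U.pw (μ + 1) := by
        rw [Nat.add_comm μ 1]
        exact sub_mem (U.mul_mem_pw hpP (hall t)) (U.mul_mem_pw (U.eq_self.mem U) (hall u))
      have h5 := h3.add U h4
      rw [← e] at h5
      exact U.eq_of_mem (U.prim hu (h5.mem U))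
        (fun hh => h5.not_mem U (Ideal.mul_mem_left _ _ hh))
  obtain ⟨E', t, ht, hE'⟩ := U.normalize E hall
  have hu : E' π ∉ P := fun h => by
    rw [← U.pw_one] at h
    have h1 : π ^ μ * E' π ∈ U.pw (μ + 1) := U.mul_mem_pw ((U.eq_pow μ).mem U) h
    rw [hE'] at h1
    exact hex'.not_mem U (U.prim ht h1)
  by_contra hno
  push Not at hno
  refine hu ?_
  conv => enter [2]; rw [← δ.sum_repr E']
  rw [der_sum_apply]
  exact Submodule.sum_mem _ (fun i _ => Ideal.mul_mem_left _ _ (hno i))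

variable [UniqueFactorizationMonoid A] [IsIntegrallyClosed R] [Algebra.IsIntegral A R]

/-- Inertia fixing the tangent frame is trivial. -/
theorem inertia_eq_one [IsNoetherianRing R] (H : Cov ρ) (C : Chart k A n)
    (δ : Module.Basis (Fin n) R (Derivation k R R)) {p : A} (hp : Prime p)
    (hP : P.comap (algebraMap A R) = Ideal.span {p}) {g : G} (hg : g ∈ inertia ρ P)
    (hfix : ∀ i r, ρ g (δ i r) = δ i (ρ g r)) : g = 1 := by
  obtain ⟨π, U⟩ := exists_unif H.inj hp P hP
  obtain ⟨i, hi⟩ := U.exists_unit C H hp hP δ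
  obtain ⟨t, u, ht, hu, h⟩ := U.act_eq (stab_of_inertia hg) U.eq_self
  rw [pow_one] at h
  have hgπ : ρ g π ∈ P := (stab_of_inertia hg π).2 U.mem
  have h1 := congr_arg (δ i) h
  rw [(δ i).leibniz, (δ i).leibniz, smul_eq_mul, smul_eq_mul, smul_eq_mul, smul_eq_mul,
    ← hfix] at h1
  have h2 : (t - u) * δ i π ∈ P := by
    have e : (t - u) * δ i π
        = π * δ i u - ρ g π * δ i t - t * (ρ g (δ i π) - δ i π) := by
      linear_combination h1
    rw [e]
    exact sub_mem (sub_mem (P.mul_mem_right _ U.mem) (P.mul_mem_right _ hgπ))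
      (P.mul_mem_left _ (hg _))
  refine Unif.inertia_trivial k U H.faith hg (U.prim ht ?_)
  have e : t * (ρ g π - π) = -((t - u) * π) := by linear_combination h
  rw [e]
  refine neg_mem (U.mul_mem_pw (i := 1) (j := 1) ?_ (U.eq_self.mem U))
  rw [U.pw_one]
  exact (U.prime.mem_or_mem h2).resolve_right hi

/-- Inertia acts on the frame as a pseudo-reflection. -/
theorem inertia_rank [IsNoetherianRing R] (H : Cov ρ) (C : Chart k A n)
    (δ : Module.Basis (Fin n) R (Derivation k R R)) {p : A} (hp : Prime p)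
    (hP : P.comap (algebraMap A R) = Ideal.span {p}) {g : G} (hg : g ∈ inertia ρ P)
    (N : Matrix (Fin n) (Fin n) k)
    (hN : ∀ i r, ρ g (δ i (ρ g⁻¹ r)) = δ i r + ∑ j, algebraMap k R (N i j) * δ j r) :
    ∀ i i' j j', N i j * N i' j' = N i j' * N i' j := by
  classical
  obtain ⟨π, U⟩ := exists_unif H.inj hp P hP
  obtain ⟨i0, hi0⟩ := U.exists_unit C H hp hP δ
  have hpres : ∀ D : Derivation k R R, D π ∈ P → ∀ x ∈ P, D x ∈ P := by
    intro D hD x hx
    obtain ⟨t, ht, w, hw⟩ := (U.pw_one.symm ▸ hx : x ∈ U.pw 1)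
    rw [pow_one] at hw
    refine (U.prime.mem_or_mem (?_ : t * D x ∈ P)).resolve_left ht
    have := congr_arg D hw
    rw [D.leibniz, D.leibniz, smul_eq_mul, smul_eq_mul, smul_eq_mul, smul_eq_mul] at this
    rw [show t * D x = π * D w + w * D π - x * D t by linear_combination this]
    exact sub_mem (add_mem (P.mul_mem_right _ U.mem) (P.mul_mem_left _ hD)) (P.mul_mem_right _ hx)
  have hcoef : ∀ w : Fin n → R, (∀ r, (∑ j, w j • δ j) r ∈ P) → ∀ j, w j ∈ P := by
    intro w hw j
    obtain ⟨E', t, ht, hE'⟩ := U.normalize (∑ j, w j • δ j) (μ := 1)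
      (fun r => by rw [U.pw_one]; exact hw r)
    have he : π • E' = t • ∑ j, w j • δ j := Derivation.ext (fun r => by
      simp only [Derivation.smul_apply, smul_eq_mul]
      rw [← hE', pow_one])
    have h1 := congr_arg (fun D => δ.repr D j) he
    simp only [map_smul, map_sum, Finsupp.smul_apply, smul_eq_mul] at h1
    rw [Finsupp.finset_sum_apply] at h1
    simp [Module.Basis.repr_self, Finsupp.single_apply] at h1
    exact (U.prime.mem_or_mem (h1 ▸ P.mul_mem_right _ U.mem : t * w j ∈ P)).resolve_left ht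
  have key : ∀ i j, δ i0 π * algebraMap k R (N i j) - δ i π * algebraMap k R (N i0 j) ∈ P := by
    intro i
    refine hcoef (fun j => δ i0 π * algebraMap k R (N i j) - δ i π * algebraMap k R (N i0 j))
      (fun r => ?_)
    set D : Derivation k R R := δ i0 π • δ i - δ i π • δ i0 with hD
    have hDπ : D π ∈ P := by
      simp only [hD, Derivation.sub_apply, Derivation.smul_apply, smul_eq_mul]
      rw [mul_comm, sub_self]; exact P.zero_mem
    have hgr : ρ g⁻¹ r - r ∈ P := (inertia ρ P).inv_mem hg r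
    have h1 : D (ρ g⁻¹ r - r) ∈ P := hpres D hDπ _ hgr
    have hsum : (∑ j, (δ i0 π * algebraMap k R (N i j) - δ i π * algebraMap k R (N i0 j)) • δ j) r
        = δ i0 π * (ρ g (δ i (ρ g⁻¹ r)) - δ i (ρ g⁻¹ r))
          - δ i π * (ρ g (δ i0 (ρ g⁻¹ r)) - δ i0 (ρ g⁻¹ r)) + D (ρ g⁻¹ r - r) := by
      rw [der_sum_apply, hN i r, hN i0 r]
      simp only [hD, Derivation.sub_apply, Derivation.smul_apply, smul_eq_mul, map_sub, sub_mul,
        Finset.sum_sub_distrib, mul_assoc, ← Finset.mul_sum]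
      ring
    rw [hsum]
    exact add_mem (sub_mem (P.mul_mem_left _ (hg _)) (P.mul_mem_left _ (hg _))) h1
  intro i i' j j'
  by_contra hne
  have h : δ i0 π * (δ i0 π * algebraMap k R (N i j * N i' j' - N i j' * N i' j)) ∈ P := by
    have a1 := key i j
    have a2 := key i' j'
    have a3 := key i j'
    have a4 := key i' j
    have e : δ i0 π * (δ i0 π * algebraMap k R (N i j * N i' j' - N i j' * N i' j))
        = (δ i0 π * algebraMap k R (N i j) - δ i π * algebraMap k R (N i0 j))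
            * (δ i0 π * algebraMap k R (N i' j'))
          + (δ i π * algebraMap k R (N i0 j))
            * (δ i0 π * algebraMap k R (N i' j') - δ i' π * algebraMap k R (N i0 j'))
          - (δ i0 π * algebraMap k R (N i j') - δ i π * algebraMap k R (N i0 j'))
            * (δ i0 π * algebraMap k R (N i' j))
          - (δ i π * algebraMap k R (N i0 j'))
            * (δ i0 π * algebraMap k R (N i' j) - δ i' π * algebraMap k R (N i0 j)) := by
      simp only [map_sub, map_mul]; ring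
    rw [e]
    exact sub_mem (sub_mem (add_mem (P.mul_mem_right _ a1) (P.mul_mem_left _ a2))
      (P.mul_mem_right _ a3)) (P.mul_mem_left _ a4)
  have h' := (U.prime.mem_or_mem ((U.prime.mem_or_mem h).resolve_left hi0)).resolve_left hi0
  exact U.prime.ne_top (P.eq_top_of_isUnit_mem h'
    ((IsUnit.mk0 _ (sub_ne_zero.2 hne)).map (algebraMap k R)))

omit [IsLocalRing A] [IsNoetherianRing A] [P.IsPrime] in
theorem dvd_of_prime_pows [IsNoetherianRing R] (H : Cov ρ) {a : A} {y : R} (ha : a ≠ 0)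
    (h : ∀ (p : A) (v : ℕ), Prime p → p ^ v ∣ a → algebraMap A R (p ^ v) ∣ y) :
    algebraMap A R a ∣ y := by
  induction a using UniqueFactorizationMonoid.induction_on_prime generalizing y with
  | h₁ => exact absurd rfl ha
  | h₂ u hu => exact (hu.map _).dvd
  | h₃ a q ha0 hq ih =>
    obtain ⟨z, hz⟩ := h q 1 hq (by rw [pow_one]; exact dvd_mul_right q a)
    rw [pow_one] at hz
    rw [map_mul, hz]
    refine mul_dvd_mul_left _ (ih ha0 (fun p v hp hv => ?_))
    by_cases hpq : p ∣ q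
    · obtain ⟨e, he⟩ := (hp.dvd_prime_iff_associated hq).1 hpq
      have := h p (v + 1) hp (by
        rw [pow_succ, mul_comm q a]; exact mul_dvd_mul hv hpq)
      rw [hz, pow_succ, map_mul, mul_comm (algebraMap A R q)] at this
      rw [← he, map_mul, ← mul_assoc, mul_right_comm] at this
      exact (((e.isUnit.map (algebraMap A R))).dvd_mul_right).1
        ((mul_dvd_mul_iff_right ((map_ne_zero_iff _ H.inj).2 hp.ne_zero)).1 this)
    · refine H.dvd_of_local hp v z (fun Q hQ hQc => ⟨algebraMap A R q,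
        algebraMap_notMem hQc hpq, ?_⟩)
      rw [← hz]
      exact h p v hp (hv.mul_left q)

omit [IsLocalRing A] [IsNoetherianRing A] [P.IsPrime] in
/-- An extended derivation is integral on the elements fixed by the inertia groups. -/
theorem dvd_of_fixed [IsNoetherianRing R] (H : Cov ρ) (K : Subgroup G) (E : Derivation k R R)
    {a : A} (ha : a ≠ 0) (hK : ∀ c ∈ fixS k ρ K, algebraMap A R a ∣ E c) {s : R}
    (hs : ∀ (p : A) (Q : Ideal R), Prime p → Q.IsPrime →
      Q.comap (algebraMap A R) = Ideal.span {p} → ∀ g ∈ K, g ∈ inertia ρ Q → ρ g s = s) :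
    algebraMap A R a ∣ E s := by
  classical
  have main : ∀ (p : A) (v : ℕ), Prime p → p ^ v ∣ a → algebraMap A R (p ^ v) ∣ E s := by
    intro p v hp hv
    refine H.dvd_of_local hp v _ (fun Q hQ hQc => ?_)
    obtain ⟨π, U⟩ := exists_unif H.inj hp Q hQc
    obtain ⟨j, hj⟩ := U.exists_eq ((map_ne_zero_iff _ H.inj).2 (pow_ne_zero v hp.ne_zero))
    suffices hEs : E s ∈ U.pw j by
      obtain ⟨t, ht, w, hw⟩ := hEs
      obtain ⟨t0, u, ht0, hu, h0⟩ := hj
      exact ⟨u * t, U.notMem_mul hu ht, t0 * w, by linear_combination u * hw - w * h0⟩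
    have hKj : ∀ c ∈ fixS k ρ K, E c ∈ U.pw j := fun c hc => by
      obtain ⟨w, hw⟩ := (map_dvd (algebraMap A R) hv).trans (hK c hc)
      rw [hw]
      exact Ideal.mul_mem_right _ _ (hj.mem U)
    by_contra hEs
    obtain ⟨j', rfl⟩ : ∃ j', j = j' + 1 :=
      ⟨j - 1, (Nat.sub_add_cancel (Nat.pos_of_ne_zero fun e =>
        hEs (by rw [e, U.pw_zero]; trivial))).symm⟩
    obtain ⟨μ, hle, hall, hex⟩ := U.exists_min E hEs
    have hexact := U.exists_exact K E hall hex (fun c hc => U.pw_mono (by omega) (hKj c hc))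
    let ρK : K →* (R ≃ₐ[A] R) := ρ.comp K.subtype
    have hfK : Function.Injective ρK := H.faith.comp K.subtype_injective
    obtain ⟨q, hq, hqK⟩ := Unif.exists_invariant k U (ρ := ρK) hfK
    set m := Nat.card (inertia ρK Q)
    have hm : 0 < m := Nat.card_pos
    obtain ⟨m', hm'⟩ : ∃ m', m = m' + 1 := ⟨m - 1, by omega⟩
    rw [hm'] at hq
    have hjm : j' + 1 ≤ μ + m' :=
      (U.der_eq E hall hexact hq).le U (hKj q (fun g hg => hqK ⟨g, hg⟩))
    have hfixP : ∀ x ∈ Q, (∀ g : K, g ∈ inertia ρK Q → ρK g x = x) → E x ∈ U.pw (j' + 1) := by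
      intro x hx hfx
      rcases eq_or_ne x 0 with rfl | hx0
      · rw [map_zero]; exact zero_mem _
      obtain ⟨d, hd⟩ := U.exists_eq hx0
      have hd1 : 1 ≤ d := hd.le U (by rw [U.pw_one]; exact hx)
      have := Unif.card_le_of_fixed k U hfK (inertia ρK Q) le_rfl hd1 hd hfx
      obtain ⟨d', rfl⟩ : ∃ d', d = d' + 1 := ⟨d - 1, by omega⟩
      exact U.pw_mono (by omega) ((U.der_eq E hall hexact hd).mem U)
    refine hEs (GC.der_mem (fixS k ρ K) E Q (U.pw (j' + 1)) hKj s ?_ (fun f hf => hfixP _ hf ?_)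
      (fun a x ha hx => U.prim ha hx))
    · obtain ⟨f, hf, hfs⟩ := exists_monic_fix (k := k) ρ K s
      exact ⟨f, hf, hfs ▸ Q.zero_mem⟩
    · intro g hg
      change ρ g (aeval s f) = _
      rw [aeval_eq_sum_range, map_sum]
      refine Finset.sum_congr rfl (fun i _ => ?_)
      rw [Algebra.smul_def, map_mul, map_pow, hs p Q hp hQ hQc g g.2 hg]
      congr 1
      exact (f.coeff i).2 g g.2
  exact dvd_of_prime_pows H ha main

end Vale.Agent.P266.GC
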