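import Vale.Agent.P266.GC.Base

/-! Every derivation of the base extends, up to a nonzero factor, to a derivation of the cover. -/

namespace Vale.Agent.P266.GC

open IsLocalRing Polynomial

variable {k A R G : Type*} [Field k] [CharZero k] [CommRing A] [Algebra k A] [CommRing R]
  [IsDomain R] [Algebra k R] [Algebra A R] [IsScalarTower k A R] [Group G] [Fintype G]

/-- A faithful finite Galois cover. -/
structure Cov (ρ : G →* (R ≃ₐ[A] R)) : Prop where
  inj : Function.Injective (algebraMap A R)
  fixed : ∀ r : R, (∀ g, ρ g r = r) → ∃ a : A, algebraMap A R a = r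
  faith : Function.Injective ρ

variable {ρ : G →* (R ≃ₐ[A] R)}

variable (k) in
include k in
theorem Cov.exists_free_orbit (H : Cov ρ) : ∃ θ : R, ∀ g : G, ρ g θ = θ → g = 1 := by
  haveI : Infinite k := Infinite.of_injective (Nat.cast : ℕ → k) Nat.cast_injective
  let p : {g : G // g ≠ 1} → Submodule k R := fun g =>
    { carrier := {r | ρ g.1 r = r}
      add_mem' := fun {a b} (ha : ρ g.1 a = a) (hb : ρ g.1 b = b) => by
        change ρ g.1 (a + b) = a + b
        rw [map_add, ha, hb]
      zero_mem' := map_zero _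
      smul_mem' := fun c {a} (ha : ρ g.1 a = a) => by
        change ρ g.1 (c • a) = c • a
        rw [Algebra.smul_def, map_mul, act_algk, ha] }
  obtain ⟨θ, hθ⟩ := Submodule.exists_forall_notMem_of_forall_ne_top p (fun g e => g.2 (by
    refine H.faith (AlgEquiv.ext (fun r => ?_))
    have : r ∈ p g := e ▸ Submodule.mem_top
    rw [map_one, AlgEquiv.one_apply]
    exact this))
  exact ⟨θ, fun g hg => by_contra (fun hne => hθ ⟨g, hne⟩ hg)⟩

theorem Cov.lift_poly (H : Cov ρ) (p : R[X]) (hp : ∀ g, p.map (ρ g : R →+* R) = p) :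
    ∃ q : A[X], q.map (algebraMap A R) = p := by
  refine (mem_lifts p).1 ((lifts_iff_coeff_lifts p).2 (fun j => ?_))
  refine H.fixed _ (fun g => ?_)
  conv_rhs => rw [← hp g, coeff_map]
  rfl

/-- Extension of a derivation of the base to the cover. -/
theorem Cov.exists_extend (H : Cov ρ) (D : Derivation k A A) :
    ∃ (E : Derivation k R R) (a : A), a ≠ 0 ∧
      ∀ b, E (algebraMap A R b) = algebraMap A R (a * D b) := by
  classical
  obtain ⟨θ, hθ⟩ := Cov.exists_free_orbit k H
  let ι := algebraMap A R
  have hdist : Function.Injective (fun g : G => ρ g θ) := fun g h (e : ρ g θ = ρ h θ) => by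
    have : ρ (h⁻¹ * g) θ = θ := by rw [← act_act, e, act_inv_act]
    exact (inv_mul_eq_one.1 (hθ _ this)).symm
  let fR : R[X] := ∏ g : G, (X - C (ρ g θ))
  obtain ⟨f, hf⟩ := H.lift_poly fR (fun h => by
    simp only [fR, Polynomial.map_prod, Polynomial.map_sub, map_X, map_C]
    exact Fintype.prod_equiv (Equiv.mulLeft h) _ _ (fun g => by simp only [Equiv.coe_mulLeft, RingHom.coe_coe, AlgEquiv.coe_toAlgHom, act_act]))
  let L : R → R[X] := fun r =>
    ∑ g : G, C (ρ g r) * ∏ h ∈ Finset.univ.erase g, (X - C (ρ h θ))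
  have hLinv : ∀ r h, (L r).map (ρ h : R →+* R) = L r := fun r h => by
    simp only [L, Polynomial.map_sum, Polynomial.map_mul, Polynomial.map_prod, Polynomial.map_sub,
      map_X, map_C]
    refine Fintype.sum_equiv (Equiv.mulLeft h) _ _ (fun g => ?_)
    congr 1
    · simp only [Equiv.coe_mulLeft, RingHom.coe_coe, AlgEquiv.coe_toAlgHom, act_act]
    · refine Finset.prod_equiv (Equiv.mulLeft h) (fun x => ?_) (fun x _ => ?_)
      · simp
      · simp only [Equiv.coe_mulLeft, RingHom.coe_coe, AlgEquiv.coe_toAlgHom, act_act]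
  choose P hP using fun r => H.lift_poly (L r) (hLinv r)
  set c : R := ∏ h ∈ Finset.univ.erase (1 : G), (θ - ρ h θ) with hc
  have hc0 : c ≠ 0 := Finset.prod_ne_zero_iff.2 (fun h hh e => Finset.ne_of_mem_erase hh
    (hθ h (sub_eq_zero.1 e).symm))
  have hPθ : ∀ r, aeval θ (P r) = r * c := fun r => by
    rw [← eval_map_algebraMap, hP, eval_finset_sum, Finset.sum_eq_single (1 : G)]
    · simp [eval_prod, hc]
    · intro g _ hg
      rw [eval_mul, eval_prod]
      exact mul_eq_zero_of_right _ (Finset.prod_eq_zero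
        (Finset.mem_erase.2 ⟨Ne.symm hg, Finset.mem_univ 1⟩) (by simp))
    · simp
  have hff : aeval θ f.derivative = c := by
    rw [← eval_map_algebraMap, ← derivative_map, hf]
    simp only [fR]
    rw [← Finset.mul_prod_erase _ _ (Finset.mem_univ (1 : G)), derivative_mul, eval_add, eval_mul,
      eval_mul]
    simp [eval_prod, hc]
  have hfθ : aeval θ f = 0 := by
    rw [← eval_map_algebraMap, hf, eval_prod]
    exact Finset.prod_eq_zero (Finset.mem_univ (1 : G)) (by simp)
  let ψ : A[X] → R := fun p => p.sum (fun j a => ι (D a) * θ ^ j)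
  have ψ_add : ∀ p q, ψ (p + q) = ψ p + ψ q := fun p q =>
    sum_add_index p q _ (by simp) (by intro j a b; simp [add_mul])
  have ψ_mon : ∀ j a, ψ (monomial j a) = ι (D a) * θ ^ j := fun j a =>
    sum_monomial_index a _ (by simp)
  have ψ_mul : ∀ p q, ψ (p * q) = aeval θ p * ψ q + aeval θ q * ψ p := by
    intro p q
    induction p using Polynomial.induction_on' with
    | add p p' hp hp' => rw [add_mul, ψ_add, hp, hp', ψ_add, map_add]; ring
    | monomial i a =>
      induction q using Polynomial.induction_on' with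
      | add q q' hq hq' => rw [mul_add, ψ_add, hq, hq', ψ_add, map_add]; ring
      | monomial j b =>
        simp only [monomial_mul_monomial, ψ_mon, aeval_monomial, D.leibniz, smul_eq_mul, ι,
          map_add, map_mul, pow_add]
        ring
  let Φ : A[X] → R := fun p => aeval θ f.derivative * ψ p - ψ f * aeval θ p.derivative
  have Φ_add : ∀ p q, Φ (p + q) = Φ p + Φ q := fun p q => by
    simp only [Φ, ψ_add, map_add]; ring
  have Φ_mul : ∀ p q, Φ (p * q) = aeval θ p * Φ q + aeval θ q * Φ p := fun p q => by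
    simp only [Φ, ψ_mul, derivative_mul, map_add, map_mul]; ring
  have Φ_ker : ∀ p, aeval θ p = 0 → Φ p = 0 := by
    intro p hp
    have hfm : f.Monic :=
      monic_of_injective H.inj (by rw [hf]; exact monic_prod_X_sub_C _ _)
    have hr : p %ₘ f = 0 := by
      refine Polynomial.map_injective _ H.inj ?_
      rw [Polynomial.map_zero]
      refine eq_zero_of_natDegree_lt_card_of_eval_eq_zero _ hdist (fun g => ?_) ?_
      · have h1 : aeval θ (p %ₘ f) = 0 := by
          have := congr_arg (aeval θ) (modByMonic_add_div p f)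
          rwa [map_add, map_mul, hfθ, zero_mul, add_zero, hp] at this
        rw [eval_map_algebraMap]
        change aeval ((ρ g : R →ₐ[A] R) θ) (p %ₘ f) = 0
        rw [aeval_algHom_apply, h1, map_zero]
      · rw [natDegree_map_eq_of_injective H.inj]
        have hd : f.natDegree = Fintype.card G := by
          rw [← natDegree_map_eq_of_injective H.inj, hf]
          simp [fR]
        rw [← hd]
        refine natDegree_modByMonic_lt _ hfm (fun e => ?_)
        rw [e, natDegree_one] at hd
        exact absurd hd.symm Fintype.card_ne_zero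
    have h2 := modByMonic_add_div p f
    rw [hr, zero_add] at h2
    have h3 : aeval θ (p /ₘ f) * Φ f = 0 := by
      rw [show Φ f = 0 by simp only [Φ]; ring, mul_zero]
    rw [← h2, Φ_mul, hfθ, zero_mul, zero_add, h3]
  have Φ_eq : ∀ p q, aeval θ p = aeval θ q → Φ p = Φ q := fun p q h => by
    have h1 := Φ_ker (p - q) (by rw [map_sub, h, sub_self])
    have h2 := Φ_add (p - q) q
    rw [sub_add_cancel, h1, zero_add] at h2
    exact h2
  let E0 : R → R := fun r => c * Φ (P r) - r * c * Φ (P 1)
  have ΦC : ∀ a : A, Φ (C a) = c * ι (D a) := fun a => by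
    simp only [Φ, hff, derivative_C, map_zero, mul_zero, sub_zero]
    rw [← monomial_zero_left, ψ_mon, pow_zero, mul_one]
  have E0_A : ∀ a : A, E0 (ι a) = c * c * c * ι (D a) := fun a => by
    simp only [E0]
    rw [Φ_eq (P (ι a)) (C a * P 1) (by rw [hPθ, map_mul, hPθ, aeval_C, one_mul]), Φ_mul,
      aeval_C, ΦC, hPθ]
    ring
  have E0_add : ∀ r s, E0 (r + s) = E0 r + E0 s := fun r s => by
    simp only [E0]
    rw [Φ_eq (P (r + s)) (P r + P s) (by rw [map_add, hPθ, hPθ, hPθ, add_mul]), Φ_add]
    ring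
  have E0_mul : ∀ r s, E0 (r * s) = r * E0 s + s * E0 r := fun r s => by
    have h := Φ_eq (P (r * s) * P 1) (P r * P s) (by
      rw [map_mul, map_mul, hPθ, hPθ, hPθ, hPθ]; ring)
    rw [Φ_mul, Φ_mul, hPθ, hPθ, hPθ, hPθ] at h
    simp only [E0]
    linear_combination h
  have E0_smul : ∀ (t : k) r, E0 (t • r) = t • E0 r := fun t r => by
    rw [Algebra.smul_def, E0_mul, IsScalarTower.algebraMap_apply k A R, E0_A,
      D.map_algebraMap, map_zero, mul_zero, mul_zero, add_zero,
      ← IsScalarTower.algebraMap_apply, ← Algebra.smul_def]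
  let E : Derivation k R R := Derivation.mk'
    { toFun := E0, map_add' := E0_add, map_smul' := E0_smul } (fun r s => by
      simpa [smul_eq_mul] using E0_mul r s)
  set b : R := c * c * c with hb
  obtain ⟨N, hN⟩ := H.fixed (∏ g : G, ρ g b) (fun h => by
    rw [map_prod]
    exact Fintype.prod_equiv (Equiv.mulLeft h) _ _ (fun g => by simp only [Equiv.coe_mulLeft, RingHom.coe_coe, AlgEquiv.coe_toAlgHom, act_act]))
  refine ⟨(∏ g ∈ Finset.univ.erase (1 : G), ρ g b) • E, N, fun e => ?_, fun a => ?_⟩
  · rw [e, map_zero] at hN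
    obtain ⟨g, _, hg⟩ := Finset.prod_eq_zero_iff.1 hN.symm
    exact mul_ne_zero (mul_ne_zero hc0 hc0) hc0
      ((map_eq_zero_iff (ρ g) (AlgEquiv.injective _)).1 hg)
  · rw [Derivation.smul_apply, smul_eq_mul]
    change _ * E0 (ι a) = _
    rw [E0_A, map_mul, hN, ← Finset.mul_prod_erase _ _ (Finset.mem_univ (1 : G)), map_one,
      AlgEquiv.one_apply, hb]
    ring

end Vale.Agent.P266.GC
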