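import Vale.Agent.P266.GC.Val

/-! Inertia at a prime of the cover. -/

namespace Vale.Agent.P266.GC

open Polynomial

/-- Fraction field of the residue domain. -/
abbrev Res {R : Type*} [CommRing R] (P : Ideal R) := FractionRing (R ⧸ P)

noncomputable def res {R : Type*} [CommRing R] (P : Ideal R) : R →+* Res P :=
  (algebraMap (R ⧸ P) (Res P)).comp (Ideal.Quotient.mk P)

theorem res_eq_zero {R : Type*} [CommRing R] {P : Ideal R} [P.IsPrime] {x : R} :
    res P x = 0 ↔ x ∈ P := by
  rw [res, RingHom.comp_apply, map_eq_zero_iff _ (IsFractionRing.injective (R ⧸ P) (Res P)),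
    Ideal.Quotient.eq_zero_iff_mem]

section lead

variable {R : Type*} [CommRing R] [IsDomain R] {P : Ideal R} [P.IsPrime] {π : R} (U : Unif P π)

open Classical in
/-- The class of `x / π ^ m` in the residue field. -/
noncomputable def Unif.lead (m : ℕ) (x : R) : Res P :=
  if h : x ∈ U.pw m then
    res P h.choose_spec.2.choose / res P h.choose
  else 0

theorem Unif.lead_eq {m : ℕ} {x t w : R} (ht : t ∉ P) (h : t * x = π ^ m * w) :
    U.lead m x = res P w / res P t := by
  have hx : x ∈ U.pw m := ⟨t, ht, w, h⟩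
  rw [Unif.lead, dif_pos hx]
  set t' := hx.choose
  set w' := hx.choose_spec.2.choose
  have ht' : t' ∉ P := hx.choose_spec.1
  have h' : t' * x = π ^ m * w' := hx.choose_spec.2.choose_spec
  rw [div_eq_div_iff (fun e => ht' (res_eq_zero.1 e)) (fun e => ht (res_eq_zero.1 e)), ← map_mul,
    ← map_mul]
  congr 1
  refine mul_left_cancel₀ (pow_ne_zero m U.ne) ?_
  linear_combination t' * h - t * h'

theorem Unif.lead_zero (x : R) : U.lead 0 x = res P x := by
  rw [U.lead_eq (w := x) U.one_notMem (by simp), map_one, div_one]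

theorem Unif.lead_self : U.lead 1 π = 1 := by
  rw [U.lead_eq (w := 1) U.one_notMem (by simp), map_one, div_one]

theorem Unif.lead_mul {i j : ℕ} {a b : R} (ha : a ∈ U.pw i) (hb : b ∈ U.pw j) :
    U.lead (i + j) (a * b) = U.lead i a * U.lead j b := by
  obtain ⟨t, ht, u, hu⟩ := ha
  obtain ⟨s, hs, v, hv⟩ := hb
  rw [U.lead_eq ht hu, U.lead_eq hs hv, div_mul_div_comm, ← map_mul, ← map_mul]
  refine U.lead_eq (U.notMem_mul ht hs) ?_
  rw [mul_mul_mul_comm, hu, hv, pow_add]
  ring

theorem Unif.lead_add {m : ℕ} {a b : R} (ha : a ∈ U.pw m) (hb : b ∈ U.pw m) :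
    U.lead m (a + b) = U.lead m a + U.lead m b := by
  obtain ⟨t, ht, u, hu⟩ := ha
  obtain ⟨s, hs, v, hv⟩ := hb
  rw [U.lead_eq ht hu, U.lead_eq hs hv,
    div_add_div _ _ (fun e => ht (res_eq_zero.1 e)) (fun e => hs (res_eq_zero.1 e)), ← map_mul,
    ← map_mul, ← map_mul, ← map_add]
  refine U.lead_eq (U.notMem_mul ht hs) ?_
  linear_combination s * hu + t * hv

theorem Unif.lead_sum {m : ℕ} {ι : Type*} (S : Finset ι) (f : ι → R)
    (hf : ∀ i ∈ S, f i ∈ U.pw m) : U.lead m (∑ i ∈ S, f i) = ∑ i ∈ S, U.lead m (f i) := by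
  classical
  induction S using Finset.induction_on with
  | empty =>
    simp only [Finset.sum_empty]
    rw [U.lead_eq (w := 0) U.one_notMem (by simp), map_zero, zero_div]
  | insert a S ha ih =>
    rw [Finset.sum_insert ha, Finset.sum_insert ha,
      U.lead_add (hf a (Finset.mem_insert_self a S))
        (Submodule.sum_mem _ fun i hi => hf i (Finset.mem_insert_of_mem hi)),
      ih fun i hi => hf i (Finset.mem_insert_of_mem hi)]

theorem Unif.lead_eq_zero {m : ℕ} {x : R} (hx : x ∈ U.pw m) :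
    U.lead m x = 0 ↔ x ∈ U.pw (m + 1) := by
  obtain ⟨t, ht, w, hw⟩ := hx
  rw [U.lead_eq ht hw, div_eq_zero_iff, or_iff_left (fun e => ht (res_eq_zero.1 e)), res_eq_zero]
  constructor
  · intro h
    refine U.prim ht (hw ▸ U.mul_mem_pw ((U.eq_pow m).mem U) ?_)
    rwa [U.pw_one]
  · intro h
    by_contra hwP
    exact Unif.eq.not_mem U ⟨t, w, ht, hwP, by rw [hw]; ring⟩ h

end lead

variable {k A R G : Type*} [Field k] [CharZero k] [CommRing A] [IsDomain A]
  [UniqueFactorizationMonoid A] [Algebra k A] [CommRing R] [IsDomain R] [Algebra k R]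
  [Algebra A R] [IsScalarTower k A R] [Group G] [Fintype G] {ρ : G →* (R ≃ₐ[A] R)}

/-- Inertia group. -/
def inertia (ρ : G →* (R ≃ₐ[A] R)) (P : Ideal R) : Subgroup G where
  carrier := {g | ∀ r, ρ g r - r ∈ P}
  one_mem' := fun r => by simp
  mul_mem' := fun {g h} hg hh r => by
    rw [← act_act]
    simpa using add_mem (hg (ρ h r)) (hh r)
  inv_mem' := fun {g} hg r => by
    have := neg_mem (hg (ρ g⁻¹ r))
    rwa [act_act_inv, neg_sub] at this

/-- `g` stabilizes `P`. -/
def Stab (ρ : G →* (R ≃ₐ[A] R)) (P : Ideal R) (g : G) : Prop := ∀ r, ρ g r ∈ P ↔ r ∈ P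

omit [IsDomain A] [UniqueFactorizationMonoid A] [IsDomain R] [Fintype G] in
theorem stab_of_inertia {P : Ideal R} {g : G} (hg : g ∈ inertia ρ P) : Stab ρ P g := fun r =>
  ⟨fun h => by simpa using sub_mem h (hg r), fun h => by simpa using add_mem (hg r) h⟩

omit [IsDomain A] [UniqueFactorizationMonoid A] [IsDomain R] [Fintype G] in
theorem stab_inv {P : Ideal R} {g : G} (hg : Stab ρ P g) : Stab ρ P g⁻¹ := fun r => by
  have := hg (ρ g⁻¹ r)
  rw [act_act_inv] at this
  exact this.symm

omit [IsDomain A] [UniqueFactorizationMonoid A] [IsDomain R] in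
theorem stab_of_forall {P : Ideal R} {g : G} (hg : ∀ r, ρ g r ∈ P → r ∈ P) : Stab ρ P g := by
  intro r
  refine ⟨hg r, fun h => ?_⟩
  have hpow : ∀ (j : ℕ) (r : R), ρ (g ^ j) r ∈ P → r ∈ P := by
    intro j
    induction j with
    | zero => intro r h; simpa using h
    | succ j ih =>
      intro r h
      rw [pow_succ, ← act_act] at h
      exact hg r (ih _ h)
  refine hpow (Fintype.card G - 1) _ ?_
  rw [act_act, ← pow_succ, Nat.sub_add_cancel (Fintype.card_pos (α := G)), pow_card_eq_one,
    map_one, AlgEquiv.one_apply]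
  exact h

variable {P : Ideal R} [P.IsPrime] {π : R} (U : Unif P π) (hf : Function.Injective ρ)

omit [IsDomain A] [UniqueFactorizationMonoid A] [Fintype G] in
theorem Unif.act_pw {g : G} (hg : Stab ρ P g) {m : ℕ} {x : R} (hx : x ∈ U.pw m) :
    ρ g x ∈ U.pw m := by
  obtain ⟨t, ht, w, hw⟩ := hx
  refine U.prim (fun h => ht ((hg t).1 h)) ?_
  rw [← map_mul, hw, map_mul, map_pow]
  refine Ideal.mul_mem_right _ _ ?_
  have h1 : ρ g π ∈ U.pw 1 := by rw [U.pw_one]; exact (hg π).2 U.mem
  clear hw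
  induction m with
  | zero => rw [pow_zero, U.pw_zero]; trivial
  | succ m ih => rw [pow_succ]; exact U.mul_mem_pw ih h1

omit [IsDomain A] [UniqueFactorizationMonoid A] [Fintype G] in
theorem Unif.act_eq {g : G} (hg : Stab ρ P g) {m : ℕ} {x : R} (hx : U.eq m x) :
    U.eq m (ρ g x) :=
  U.eq_of_mem (U.act_pw hg (hx.mem U)) (fun h => hx.not_mem U (by
    simpa [act_inv_act] using U.act_pw (stab_inv hg) h))

omit [IsDomain A] [UniqueFactorizationMonoid A] [Fintype G] in
theorem Unif.lead_act {g : G} (hg : g ∈ inertia ρ P) {m : ℕ} {x : R} (hx : x ∈ U.pw m) :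
    U.lead m (ρ g x) = U.lead 1 (ρ g π) ^ m * U.lead m x := by
  have hs := stab_of_inertia hg
  have hgπ : ρ g π ∈ U.pw 1 := by rw [U.pw_one]; exact (hs π).2 U.mem
  have hpow : ∀ j, ρ g π ^ j ∈ U.pw j ∧ U.lead j (ρ g π ^ j) = U.lead 1 (ρ g π) ^ j := by
    intro j
    induction j with
    | zero => simp [U.pw_zero, U.lead_zero]
    | succ j ih =>
      rw [pow_succ, pow_succ]
      exact ⟨U.mul_mem_pw ih.1 hgπ, by rw [U.lead_mul ih.1 hgπ, ih.2]⟩
  have hr : ∀ r, res P (ρ g r) = res P r := fun r => by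
    rw [← sub_eq_zero, ← map_sub, res_eq_zero]; exact hg r
  obtain ⟨t, ht, w, hw⟩ := hx
  have h1 := congr_arg (U.lead (0 + m)) (show ρ g t * ρ g x = ρ g π ^ m * ρ g w by
    rw [← map_mul, hw, map_mul, map_pow])
  rw [U.lead_mul (by rw [U.pw_zero]; trivial) (U.act_pw hs ⟨t, ht, w, hw⟩), zero_add] at h1
  rw [show U.lead m (ρ g π ^ m * ρ g w) = U.lead (m + 0) (ρ g π ^ m * ρ g w) by rw [add_zero],
    U.lead_mul (hpow m).1 (by rw [U.pw_zero]; trivial), U.lead_zero, U.lead_zero, hr, hr,
    (hpow m).2] at h1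
  rw [U.lead_eq ht hw, mul_div_assoc', eq_div_iff (fun e => ht (res_eq_zero.1 e)), mul_comm, h1]

variable (k) in
include k in
include hf in
omit [IsDomain A] [UniqueFactorizationMonoid A] in
theorem Unif.inertia_trivial {g : G} (hg : g ∈ inertia ρ P) (hπ : ρ g π - π ∈ U.pw 2) : g = 1 := by
  have hs := stab_of_inertia hg
  have hpw : ∀ j, π ^ j ∈ U.pw j ∧ ρ g (π ^ j) - π ^ j ∈ U.pw (j + 1) := by
    intro j
    induction j with
    | zero => simp [U.pw_zero]
    | succ j ih =>
      refine ⟨(U.eq_pow _).mem U, ?_⟩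
      have e : ρ g (π ^ (j + 1)) - π ^ (j + 1)
          = (ρ g (π ^ j) - π ^ j) * ρ g π + π ^ j * (ρ g π - π) := by
        rw [pow_succ, map_mul]; ring
      rw [e]
      refine add_mem (U.mul_mem_pw ih.2 ?_) (U.pw_mono (by omega) (U.mul_mem_pw ih.1 hπ))
      rw [U.pw_one]; exact (hs π).2 U.mem
  have step : ∀ (m : ℕ) (x : R), x ∈ U.pw m → ρ g x - x ∈ U.pw (m + 1) := by
    intro m x hx
    have hgx := U.act_pw hs hx
    obtain ⟨t, ht, w, hw⟩ := hx
    refine U.prim ht ?_
    have e : t * (ρ g x - x)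
        = (ρ g (π ^ m) - π ^ m) * ρ g w + π ^ m * (ρ g w - w) - (ρ g t - t) * ρ g x := by
      have h2 : ρ g t * ρ g x = ρ g (π ^ m) * ρ g w := by rw [← map_mul, hw, map_mul]
      linear_combination h2 - hw
    rw [e]
    refine sub_mem (add_mem (Ideal.mul_mem_right _ _ (hpw m).2)
      (U.mul_mem_pw (hpw m).1 ?_)) ?_
    · rw [U.pw_one]; exact hg w
    · rw [Nat.add_comm m 1]
      refine U.mul_mem_pw ?_ hgx
      rw [U.pw_one]; exact hg t
  refine hf (AlgEquiv.ext fun r => ?_)
  rw [map_one, AlgEquiv.one_apply, ← sub_eq_zero]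
  refine U.eq_zero_of_forall (fun j => ?_)
  induction j with
  | zero => rw [U.pw_zero]; trivial
  | succ j ih =>
    set x := ρ g r - r
    have h1 : ρ g x - x ∈ U.pw (j + 1) := step j x ih
    have h2 : ∀ i : ℕ, ρ (g ^ i) r - r - (i : R) * x ∈ U.pw (j + 1) := by
      intro i
      induction i with
      | zero => simp
      | succ i hi =>
        have e : ρ (g ^ (i + 1)) r - r - ((i + 1 : ℕ) : R) * x
            = ρ g (ρ (g ^ i) r - r - (i : R) * x) + (i : R) * (ρ g x - x) := by
          rw [pow_succ', ← act_act]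
          simp only [map_sub, map_mul, map_natCast, x]
          push_cast
          ring
        rw [e]
        exact add_mem (U.act_pw hs hi) (Ideal.mul_mem_left _ _ h1)
    have h3 := h2 (Fintype.card G)
    rw [pow_card_eq_one, map_one, AlgEquiv.one_apply, sub_self, zero_sub, neg_mem_iff] at h3
    exact U.prim (natCast_notMem (k := k) Fintype.card_ne_zero U.prime) h3

variable (k) in
include k in
include hf in
omit [IsDomain A] [UniqueFactorizationMonoid A] in
/-- An element of positive order fixed by a subgroup of inertia has order at least its size. -/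
theorem Unif.card_le_of_fixed (K : Subgroup G) (hK : K ≤ inertia ρ P) {d : ℕ}
    {s : R} (hd : 0 < d) (hs : U.eq d s) (hfix : ∀ g ∈ K, ρ g s = s) :
    Nat.card K ≤ d := by
  classical
  let θ : K → Res P := fun g => U.lead 1 (ρ g π)
  have hinjθ : Function.Injective θ := by
    intro g h e
    have hgh : (h⁻¹ * g : K) = 1 := by
      refine Subtype.ext ?_
      refine Unif.inertia_trivial k U hf (inertia ρ P |>.mul_mem ((inertia ρ P).inv_mem
        (hK h.2)) (hK g.2)) ?_
      have hp : ∀ g : K, ρ g π ∈ U.pw 1 := fun g => by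
        rw [U.pw_one]; exact (stab_of_inertia (hK g.2) π).2 U.mem
      have h1 : ρ g π - ρ h π ∈ U.pw 2 := by
        refine (U.lead_eq_zero (sub_mem (hp g) (hp h))).1 ?_
        have := U.lead_add (sub_mem (hp g) (hp h)) (hp h)
        rw [sub_add_cancel] at this
        simpa [θ, this] using e
      have := U.act_pw (stab_inv (stab_of_inertia (hK h.2))) h1
      rw [map_sub, act_act, act_inv_act] at this
      exact this
    exact (inv_mul_eq_one.1 hgh).symm
  have hroot : ∀ g : K, θ g ^ d = 1 := fun g => by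
    have h1 := U.lead_act (hK g.2) (hs.mem U)
    rw [hfix g g.2] at h1
    have h0 : U.lead d s ≠ 0 := fun e => hs.not_mem U ((U.lead_eq_zero (hs.mem U)).1 e)
    exact mul_right_cancel₀ h0 (by rw [one_mul]; exact h1.symm)
  calc Nat.card K = (Finset.univ.image θ).card := by
        rw [Finset.card_image_of_injective _ hinjθ, Finset.card_univ, Nat.card_eq_fintype_card]
    _ ≤ (Polynomial.nthRootsFinset d (1 : Res P)).card := Finset.card_le_card (fun z hz => by
        obtain ⟨g, _, rfl⟩ := Finset.mem_image.1 hz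
        exact (Polynomial.mem_nthRootsFinset hd (1 : Res P)).2 (hroot g))
    _ ≤ d := by
        rw [Polynomial.nthRootsFinset_def]
        exact (Multiset.toFinset_card_le _).trans (Polynomial.card_nthRoots d _)

variable (k) in
include k in
include hf in
omit [IsDomain A] [UniqueFactorizationMonoid A] in
/-- An invariant element whose order is the size of the inertia group. -/
theorem Unif.exists_invariant :
    ∃ q : R, U.eq (Nat.card (inertia ρ P)) q ∧ ∀ g : G, ρ g q = q := by
  classical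
  set I := inertia ρ P with hI
  set m := Nat.card I with hm
  have hπ : ∀ g : G, Stab ρ P g → U.eq 1 (ρ g π) := fun g hg => U.act_eq hg U.eq_self
  set N0 : R := ∏ h : I, ρ h π with hN0
  have hN : U.eq m N0 := by
    rw [hm, Nat.card_eq_fintype_card, ← Finset.card_univ, hN0]
    generalize (Finset.univ : Finset I) = S
    induction S using Finset.induction_on with
    | empty => simpa using U.eq_zero_iff.2 U.one_notMem
    | insert a S ha ih =>
      rw [Finset.prod_insert ha, Finset.card_insert_of_notMem ha, Nat.add_comm]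
      exact (hπ a (stab_of_inertia a.2)).mul U ih
  have hNI : ∀ h ∈ I, ρ h N0 = N0 := fun h hh => by
    rw [hN0, map_prod]
    refine Fintype.prod_equiv (Equiv.mulLeft (⟨h, hh⟩ : I)) _ _ (fun g => ?_)
    rw [act_act]
    rfl
  let Out := Finset.univ.filter (fun g : G => ¬ Stab ρ P g)
  let Din := Finset.univ.filter (fun g : G => Stab ρ P g)
  have hout : ∀ g : G, ∃ b : R, b ∉ P ∧ (¬ Stab ρ P g → ρ g b ∈ P) := by
    intro g
    by_cases hg : Stab ρ P g
    · exact ⟨1, U.one_notMem, fun h => absurd hg h⟩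
    · by_contra hc
      push Not at hc
      exact hg (stab_of_forall (fun r hr => by_contra (fun h => (hc r h).2 hr)))
  choose bf hbf hbf' using hout
  set b : R := ∏ g ∈ Out, bf g
  have hb : b ∉ P := fun h => by
    obtain ⟨g, _, hg⟩ := (Ideal.IsPrime.prod_mem_iff).1 h
    exact hbf g hg
  have hbO : ∀ g : G, ¬ Stab ρ P g → ρ g b ∈ P := fun g hg => by
    rw [map_prod]
    exact Ideal.mem_of_dvd _ (Finset.dvd_prod_of_mem (fun i => ρ g (bf i))
      (show g ∈ Out by simpa [Out] using hg)) (hbf' g hg)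
  let z : R → R := fun w => N0 * b ^ (m + 1) * w
  let q : R → R := fun w => ∑ g : G, ρ g (z w)
  have hqfix : ∀ w, ∀ h : G, ρ h (q w) = q w := fun w h => by
    simp only [q, map_sum]
    exact Fintype.sum_equiv (Equiv.mulLeft h) _ _ (fun g => by
      simp only [Equiv.coe_mulLeft, act_act])
  have hzout : ∀ w g, ¬ Stab ρ P g → ρ g (z w) ∈ U.pw (m + 1) := fun w g hg => by
    simp only [z, map_mul, map_pow]
    refine Ideal.mul_mem_right _ _ (Ideal.mul_mem_left _ _ ?_)
    have : ∀ j, ρ g b ^ j ∈ U.pw j := by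
      intro j
      induction j with
      | zero => rw [U.pw_zero]; trivial
      | succ j ih =>
        rw [pow_succ]
        exact U.mul_mem_pw ih (by rw [U.pw_one]; exact hbO g hg)
    exact this _
  let γ : G → Res P := fun g => U.lead m (ρ g N0) * res P (ρ g b) ^ (m + 1)
  let σ : G → (R →* Res P) := fun g => ((res P).comp (ρ g : R →+* R)).toMonoidHom
  have hσ : ∀ g r, σ g r = res P (ρ g r) := fun g r => rfl
  have hzin : ∀ w g, Stab ρ P g →
      ρ g (z w) ∈ U.pw m ∧ U.lead m (ρ g (z w)) = γ g * σ g w := fun w g hg => by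
    have h1 : ρ g N0 ∈ U.pw m := U.act_pw hg (hN.mem U)
    simp only [z, map_mul, mul_assoc]
    refine ⟨Ideal.mul_mem_right _ _ h1, ?_⟩
    have := U.lead_mul h1 (show ρ g (b ^ (m + 1)) * ρ g w ∈ U.pw 0 by rw [U.pw_zero]; trivial)
    rw [add_zero] at this
    rw [this, U.lead_zero]
    simp only [γ, hσ, map_mul, map_pow, mul_assoc]
  have hzm : ∀ w g, ρ g (z w) ∈ U.pw m := fun w g => by
    by_cases hg : Stab ρ P g
    · exact (hzin w g hg).1
    · exact U.pw_mono (Nat.le_succ m) (hzout w g hg)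
  have hlead : ∀ w, U.lead m (q w) = ∑ g ∈ Din, γ g * σ g w := fun w => by
    rw [U.lead_sum _ _ (fun g _ => hzm w g), ← Finset.sum_filter_add_sum_filter_not
      Finset.univ (fun g => Stab ρ P g)]
    rw [Finset.sum_eq_zero (s := Finset.univ.filter (fun g => ¬ Stab ρ P g)), add_zero]
    · exact Finset.sum_congr rfl (fun g hg => (hzin w g (by simpa [Din] using hg)).2)
    · exact fun g hg => (U.lead_eq_zero (hzm w g)).2 (hzout w g (by simpa using hg))
  by_contra hne
  push Not at hne
  have hzero : ∀ w, ∑ g ∈ Din, γ g * σ g w = 0 := fun w => by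
    rw [← hlead w]
    by_contra h
    have hmem : q w ∈ U.pw m := by
      exact Submodule.sum_mem _ (fun g _ => hzm w g)
    obtain ⟨g, hg⟩ := hne (q w) (U.eq_of_mem hmem (fun h' => h ((U.lead_eq_zero hmem).2 h')))
    exact hg (hqfix w g)
  have hγ : ∀ g ∈ Din, ∀ g1 ∈ Din, σ g = σ g1 → γ g = γ g1 := fun g hg g1 hg1 e => by
    have hh : g1⁻¹ * g ∈ I := fun r => by
      rw [← act_act]
      have h1 : ρ g r - ρ g1 r ∈ P := by
        rw [← res_eq_zero, map_sub, ← hσ, ← hσ, e, sub_self]
      have h2 := (stab_inv (by simpa [Din] using hg1 : Stab ρ P g1) _).2 h1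
      rwa [map_sub, act_inv_act] at h2
    have h3 : ρ g N0 = ρ g1 N0 := by
      rw [← congr_arg (ρ g1) (hNI _ hh), act_act, mul_inv_cancel_left]
    simp only [γ, h3, ← hσ, e]
  have hγ0 : ∀ g ∈ Din, γ g ≠ 0 := fun g hg => by
    have hs : Stab ρ P g := by simpa [Din] using hg
    refine mul_ne_zero (fun e => ?_) (pow_ne_zero _ (fun e => hb ((hs b).1 (res_eq_zero.1 e))))
    have := (U.lead_eq_zero (U.act_pw hs (hN.mem U))).1 e
    exact (U.act_eq hs hN).not_mem U this
  have h1D : (1 : G) ∈ Din := Finset.mem_filter.2 ⟨Finset.mem_univ _, fun r => by simp⟩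
  have hli := linearIndependent_iff'.1 (linearIndependent_monoidHom R (Res P)) (Din.image σ)
    (fun f => ∑ g ∈ Din.filter (fun g => σ g = f), γ g) ?_ (σ 1) (Finset.mem_image_of_mem _ h1D)
  · rw [Finset.sum_congr rfl (fun g hg => hγ g (Finset.mem_filter.1 hg).1 1 h1D
      (Finset.mem_filter.1 hg).2), Finset.sum_const, nsmul_eq_mul, mul_eq_zero] at hli
    refine hli.elim (fun h => ?_) (hγ0 1 h1D)
    have hc : (Din.filter (fun g => σ g = σ 1)).card ≠ 0 :=
      Finset.card_ne_zero.2 ⟨1, Finset.mem_filter.2 ⟨h1D, rfl⟩⟩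
    rw [← map_natCast (res P), res_eq_zero] at h
    exact natCast_notMem (k := k) hc U.prime h
  · funext w
    rw [Finset.sum_apply, Pi.zero_apply, ← hzero w,
      ← Finset.sum_fiberwise_of_maps_to (fun g hg => Finset.mem_image_of_mem σ hg)]
    refine Finset.sum_congr rfl (fun f _ => ?_)
    rw [Pi.smul_apply, smul_eq_mul, Finset.sum_mul]
    exact Finset.sum_congr rfl (fun g hg => by rw [(Finset.mem_filter.1 hg).2])

end Vale.Agent.P266.GC
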