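import Mathlib

/-! In a finite group of odd order two pseudo-reflections commute. -/

namespace Vale.Agent.P266.GC

open Matrix

variable {k : Type*} [Field k] [CharZero k] {H : Type*} [Group H] [Fintype H]

section commutant

variable {m : Type*} [Fintype m] [DecidableEq m]

/-- `X ↦ A X B`. -/
noncomputable def sandwich (A B : Matrix m m k) : Module.End k (Matrix m m k) :=
  (LinearMap.mulLeft k A).comp (LinearMap.mulRight k B)

omit [CharZero k] in
theorem sandwich_apply (A B X : Matrix m m k) : sandwich A B X = A * (X * B) := rfl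

omit [CharZero k] in
theorem trace_sandwich (A B : Matrix m m k) :
    LinearMap.trace k _ (sandwich A B) = A.trace * B.trace := by
  rw [LinearMap.trace_eq_matrix_trace k (Matrix.stdBasis k m m), Matrix.trace]
  rw [Fintype.sum_prod_type]
  simp only [Matrix.diag_apply, LinearMap.toMatrix_apply, Matrix.trace, Finset.sum_mul,
    Finset.mul_sum]
  rw [Finset.sum_comm]
  refine Finset.sum_congr rfl (fun j _ => Finset.sum_congr rfl (fun i _ => ?_))
  rw [Matrix.stdBasis_eq_single, sandwich_apply]
  have : ∀ (X : Matrix m m k) (p : m × m), (Matrix.stdBasis k m m).repr X p = X p.1 p.2 := by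
    intro X p
    rfl
  rw [this]
  simp [Matrix.mul_apply, Matrix.single_apply, ite_and, Finset.mul_sum]

/-- The commutant of a matrix representation. -/
def commutant (Q : H →* Matrix m m k) : Submodule k (Matrix m m k) where
  carrier := {X | ∀ h, Q h * X = X * Q h}
  zero_mem' := fun h => by simp
  add_mem' := fun {a b} ha hb h => by rw [mul_add, add_mul, ha h, hb h]
  smul_mem' := fun c {a} ha h => by rw [mul_smul_comm, ha h, smul_mul_assoc]

theorem sum_trace_eq (Q : H →* Matrix m m k) :
    ∑ h : H, (Q h).trace * (Q h⁻¹).trace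
      = (Fintype.card H : k) * (Module.finrank k (commutant Q) : k) := by
  classical
  have hN : (Fintype.card H : k) ≠ 0 := Nat.cast_ne_zero.2 Fintype.card_ne_zero
  let T : Module.End k (Matrix m m k) :=
    (Fintype.card H : k)⁻¹ • ∑ h : H, sandwich (Q h) (Q h⁻¹)
  have hT : ∀ X, T X = (Fintype.card H : k)⁻¹ • ∑ h : H, Q h * (X * Q h⁻¹) := fun X => by
    simp [T, sandwich_apply]
  have hproj : LinearMap.IsProj (commutant Q) T := by
    refine ⟨fun X g => ?_, fun X hX => ?_⟩
    · rw [hT, mul_smul_comm, smul_mul_assoc, Finset.mul_sum, Finset.sum_mul]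
      congr 1
      refine Fintype.sum_equiv (Equiv.mulLeft g) _ _ (fun h => ?_)
      simp only [Equiv.coe_mulLeft, map_mul, _root_.mul_inv_rev, mul_assoc]
      rw [← map_mul Q g⁻¹ g, inv_mul_cancel, map_one, mul_one]
    · have : ∀ h, Q h * (X * Q h⁻¹) = X := fun h => by
        rw [← mul_assoc, hX h, mul_assoc, ← map_mul, mul_inv_cancel, map_one, mul_one]
      rw [hT]
      simp only [this, Finset.sum_const, Finset.card_univ, ← Nat.cast_smul_eq_nsmul k, smul_smul,
        inv_mul_cancel₀ hN, one_smul]
  have h1 := hproj.trace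
  simp only [T, map_smul, map_sum, trace_sandwich, smul_eq_mul] at h1
  rw [← h1, mul_inv_cancel_left₀ hN]

end commutant

omit [Fintype H] in
theorem eq_one_of_sq_zero {n : Type*} [Fintype n] [DecidableEq n] [Finite H]
    (φ : H →* Matrix n n k) (g : H) (h : (φ g - 1) * (φ g - 1) = 0) : φ g = 1 := by
  have hpow : ∀ j : ℕ, φ g ^ j = 1 + (j : k) • (φ g - 1) := by
    intro j
    induction j with
    | zero => simp
    | succ j ih =>
      have e : φ g = 1 + (φ g - 1) := by rw [add_sub_cancel]
      rw [pow_succ, ih]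
      conv_lhs => rw [e]
      rw [add_mul, one_mul, mul_add, mul_one, add_sub_cancel_left, smul_mul_assoc, h, smul_zero,
        add_zero, Nat.cast_succ, add_smul, one_smul]
      abel
  have h1 := hpow (Nat.card H)
  rw [← map_pow, pow_card_eq_one', map_one] at h1
  have h2 : (Nat.card H : k) • (φ g - 1) = 0 := by
    have := congr_arg (fun X => X - (1 : Matrix n n k)) h1
    simpa using this.symm
  exact sub_eq_zero.1 ((smul_eq_zero.1 h2).resolve_left (Nat.cast_ne_zero.2 Nat.card_pos.ne'))

omit [CharZero k] in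
theorem two_identities {A B : Matrix (Fin 2) (Fin 2) k} (h : A * B = 1) :
    A.det * B.trace = A.trace ∧ (A * A).trace = A.trace ^ 2 - 2 * A.det := by
  have h00 := congr_fun (congr_fun h 0) 0
  have h10 := congr_fun (congr_fun h 1) 0
  have h01 := congr_fun (congr_fun h 0) 1
  have h11 := congr_fun (congr_fun h 1) 1
  simp [Matrix.mul_apply, Fin.sum_univ_two, Matrix.one_apply] at h00 h10 h01 h11
  refine ⟨?_, ?_⟩
  · simp [Matrix.det_fin_two, Matrix.trace_fin_two]
    linear_combination A 1 1 * h00 - A 0 1 * h10 - A 1 0 * h01 + A 0 0 * h11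
  · simp [Matrix.det_fin_two, Matrix.trace_fin_two, Matrix.mul_apply, Fin.sum_univ_two]
    ring

/-- A group of odd order has no irreducible representation of dimension two. -/
theorem odd_comm_two [IsAlgClosed k] (φ : H →* Matrix (Fin 2) (Fin 2) k)
    (hodd : Odd (Fintype.card H)) (g h : H) : φ (g * h) = φ (h * g) := by
  classical
  by_cases hv : ∃ v : Fin 2 → k, v ≠ 0 ∧ ∀ x, ∃ c : k, φ x *ᵥ v = c • v
  · obtain ⟨v, hv0, hv⟩ := hv
    choose c hc using hv
    set z := (g * h) * (h * g)⁻¹
    have hgh : φ (g * h) *ᵥ v = φ (h * g) *ᵥ v := by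
      simp only [map_mul, ← Matrix.mulVec_mulVec, hc, Matrix.mulVec_smul, smul_smul, mul_comm]
    have hz : φ z *ᵥ v = v := by
      have e1 : φ (h * g)⁻¹ *ᵥ (φ (h * g) *ᵥ v) = v := by
        rw [Matrix.mulVec_mulVec, ← map_mul, inv_mul_cancel, map_one, Matrix.one_mulVec]
      have hne : c (h * g) ≠ 0 := fun e => hv0 (by
        rw [hc, e, zero_smul, Matrix.mulVec_zero] at e1
        exact e1.symm)
      have e2 : φ (h * g)⁻¹ *ᵥ v = (c (h * g))⁻¹ • v := by
        rw [hc (h * g), Matrix.mulVec_smul] at e1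
        rw [eq_inv_smul_iff₀ hne]
        exact e1
      rw [map_mul, ← Matrix.mulVec_mulVec, e2, Matrix.mulVec_smul, hgh, hc, smul_smul,
        inv_mul_cancel₀ hne, one_smul]
    have hdet : (φ z).det = 1 := by
      have e : ∀ x : H, (φ x).det * (φ x⁻¹).det = 1 := fun x => by
        rw [← Matrix.det_mul, ← map_mul, mul_inv_cancel, map_one, Matrix.det_one]
      simp only [z, _root_.mul_inv_rev, map_mul, Matrix.det_mul]
      linear_combination (φ h).det * (φ h⁻¹).det * e g + e h
    set N := φ z - 1 with hN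
    have hsing : N.det = 0 := Matrix.exists_mulVec_eq_zero_iff.1
      ⟨v, hv0, by rw [hN, Matrix.sub_mulVec, hz, Matrix.one_mulVec, sub_self]⟩
    have htr : N.trace = 0 := by
      have e : φ z = N + 1 := by rw [hN, sub_add_cancel]
      rw [e] at hdet
      simp [Matrix.det_fin_two, Matrix.trace_fin_two, Matrix.one_apply] at hdet hsing ⊢
      linear_combination hdet - hsing
    have hsq : N * N = 0 := by
      simp [Matrix.det_fin_two, Matrix.trace_fin_two] at hsing htr
      ext i j
      fin_cases i <;> fin_cases j <;> simp [Matrix.mul_apply, Fin.sum_univ_two]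
      · linear_combination N 0 0 * htr - hsing
      · linear_combination N 0 1 * htr
      · linear_combination N 1 0 * htr
      · linear_combination N 1 1 * htr - hsing
    have := eq_one_of_sq_zero φ z hsq
    have h2 : φ (z * (h * g)) = φ (h * g) := by rw [map_mul, this, one_mul]
    simpa [z, mul_assoc] using h2
  exfalso
  -- the commutant consists of scalars
  have hscal : commutant φ = Submodule.span k {(1 : Matrix (Fin 2) (Fin 2) k)} := by
    refine le_antisymm (fun X hX => ?_) (Submodule.span_le.2 (Set.singleton_subset_iff.2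
      (fun x => by simp)))
    obtain ⟨l, hl⟩ := Module.End.exists_eigenvalue (Matrix.toLin' X)
    refine Submodule.mem_span_singleton.2 ⟨l, ?_⟩
    by_contra hne
    obtain ⟨v, hv', hv0⟩ := hl.exists_hasEigenvector
    rw [Module.End.mem_eigenspace_iff, Matrix.toLin'_apply] at hv'
    refine hv ⟨v, hv0, fun x => ?_⟩
    set E := Module.End.eigenspace (Matrix.toLin' X) l
    have hE : ∀ w, w ∈ E ↔ X *ᵥ w = l • w := fun w => by
      simp [E, Module.End.mem_eigenspace_iff]
    have hE2 : Module.finrank k E < 2 := by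
      have h1 : E < ⊤ := lt_top_iff_ne_top.2 (fun e => hne (by
        refine (Matrix.toLin'.injective (LinearMap.ext fun w => ?_)).symm
        have := (hE w).1 (e ▸ Submodule.mem_top)
        simpa using this))
      have h2 := Submodule.finrank_lt h1.ne
      simpa using h2
    have hxE : φ x *ᵥ v ∈ E := by
      rw [hE, Matrix.mulVec_mulVec, ← hX x, ← Matrix.mulVec_mulVec, hv', Matrix.mulVec_smul]
    have hvE : v ∈ E := (hE v).2 hv'
    obtain ⟨c, hc⟩ := (finrank_eq_one_iff_of_nonzero' (⟨v, hvE⟩ : E)
      (fun e => hv0 (congr_arg Subtype.val e))).1 (by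
        have : 0 < Module.finrank k E :=
          Module.finrank_pos_iff_exists_ne_zero.2 ⟨⟨v, hvE⟩, fun e => hv0 (congr_arg Subtype.val e)⟩
        exact le_antisymm (Nat.lt_succ_iff.1 hE2) this) ⟨_, hxE⟩
    exact ⟨c, (congr_arg Subtype.val hc).symm⟩
  let x : H → k := fun y => (φ y).trace * (φ y⁻¹).trace
  have h1 : ∑ y : H, x y = (Fintype.card H : k) := by
    rw [sum_trace_eq, hscal, finrank_span_singleton one_ne_zero, Nat.cast_one, mul_one]
  have hx2 : ∀ y : H, x (y ^ 2) = x y ^ 2 - 4 * x y + 4 := by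
    intro y
    have ei : φ y * φ y⁻¹ = 1 := by rw [← map_mul, mul_inv_cancel, map_one]
    obtain ⟨a1, a2⟩ := two_identities ei
    have ei' : φ y⁻¹ * φ y = 1 := by rw [← map_mul, inv_mul_cancel, map_one]
    obtain ⟨b1, b2⟩ := two_identities ei'
    have hd : (φ y).det * (φ y⁻¹).det = 1 := by rw [← Matrix.det_mul, ei, Matrix.det_one]
    simp only [x, pow_two, _root_.mul_inv_rev, map_mul]
    rw [a2, b2]
    linear_combination -2 * (φ y⁻¹).trace * a1 - 2 * (φ y).trace * b1 + 4 * hd
  have h2 : ∑ y : H, x y ^ 2 = (Fintype.card H : k) := by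
    have hco : (Nat.card H).Coprime 2 := by
      rw [Nat.card_eq_fintype_card]; exact Nat.coprime_two_right.2 hodd
    have h3 : ∑ y : H, x (y ^ 2) = ∑ y : H, x y :=
      Fintype.sum_equiv (powCoprime hco) _ _ (fun y => rfl)
    simp only [hx2, Finset.sum_add_distrib, Finset.sum_sub_distrib, ← Finset.mul_sum,
      Finset.sum_const, Finset.card_univ, nsmul_eq_mul, h1] at h3
    linear_combination h3
  let Q : H →* Matrix (Fin 2 × Fin 2) (Fin 2 × Fin 2) k :=
    { toFun := fun y => Matrix.kronecker (φ y) (φ y⁻¹).transpose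
      map_one' := by simp
      map_mul' := fun a b => by
        simp only [map_mul, _root_.mul_inv_rev, Matrix.transpose_mul, Matrix.kronecker,
          ← Matrix.mul_kronecker_mul] }
  have hQ : ∀ y, (Q y).trace = x y := fun y => by
    change (Matrix.kronecker (φ y) (φ y⁻¹).transpose).trace = _
    simp [Matrix.kronecker, Matrix.trace_kronecker, Matrix.trace_transpose, x]
  have h3 := sum_trace_eq Q
  have hxi : ∀ y : H, (Q y).trace * (Q y⁻¹).trace = x y ^ 2 := fun y => by
    rw [hQ, hQ]; simp [x]; ring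
  rw [Finset.sum_congr rfl (fun y _ => hxi y), h2] at h3
  let W : Matrix (Fin 2 × Fin 2) (Fin 2 × Fin 2) k :=
    Matrix.of fun p q => if p.1 = p.2 ∧ q.1 = q.2 then 1 else 0
  have hW : W ∈ commutant Q := fun y => by
    have ei := congr_fun₂ (show φ y * φ y⁻¹ = 1 by rw [← map_mul, mul_inv_cancel, map_one])
    have ei' := congr_fun₂ (show φ y⁻¹ * φ y = 1 by rw [← map_mul, inv_mul_cancel, map_one])
    simp only [Matrix.mul_apply, Fin.sum_univ_two] at ei ei'
    ext ⟨i, j⟩ ⟨a, b⟩
    change (Matrix.kronecker (φ y) (φ y⁻¹).transpose * W) (i, j) (a, b)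
      = (W * Matrix.kronecker (φ y) (φ y⁻¹).transpose) (i, j) (a, b)
    simp only [Matrix.mul_apply, Fintype.sum_prod_type, Fin.sum_univ_two, Matrix.kronecker,
      Matrix.kroneckerMap_apply, Matrix.transpose_apply, W, Matrix.of_apply]
    have e1 := ei i j
    have e2 := ei' b a
    fin_cases i <;> fin_cases j <;> fin_cases a <;> fin_cases b <;>
      simp at e1 e2 ⊢ <;>
      first
        | linear_combination e1 - e2
        | linear_combination e1
        | linear_combination -e2
  have hli : LinearIndependent k ![(⟨1, fun y => by simp⟩ : commutant Q), ⟨W, hW⟩] := by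
    rw [LinearIndependent.pair_iff]
    intro s t hst
    have h4 := congr_arg (fun X : commutant Q => (X : Matrix (Fin 2 × Fin 2) (Fin 2 × Fin 2) k)) hst
    simp only [Submodule.coe_add, Submodule.coe_smul, ZeroMemClass.coe_zero] at h4
    have a1 := congr_fun₂ h4 (0, 1) (0, 1)
    have a2 := congr_fun₂ h4 (0, 0) (1, 1)
    simp [W] at a1 a2
    exact ⟨a1, a2⟩
  have h4 : 2 ≤ Module.finrank k (commutant Q) := by
    simpa using hli.fintype_card_le_finrank
  have h5 : (Module.finrank k (commutant Q) : k) = 1 :=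
    mul_left_cancel₀ (Nat.cast_ne_zero.2 (Fintype.card_ne_zero (α := H))) (by rw [← h3, mul_one])
  have h6 : Module.finrank k (commutant Q) = 1 := by exact_mod_cast h5
  omega

section pseudo

variable {n : Type*} [Fintype n] [DecidableEq n]

omit [CharZero k] [DecidableEq n] in
theorem image_rank_one (N : Matrix n n k) (hN : ∀ i i' j j', N i j * N i' j' = N i j' * N i' j) :
    ∃ u : n → k, ∀ v, ∃ c : k, N *ᵥ v = c • u := by
  by_cases h0 : N = 0
  · exact ⟨0, fun v => ⟨0, by simp [h0]⟩⟩
  obtain ⟨i0, j0, h⟩ : ∃ i j, N i j ≠ 0 := by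
    by_contra hne
    push Not at hne
    exact h0 (by ext i j; exact hne i j)
  refine ⟨fun i => N i j0, fun v => ⟨(∑ j, N i0 j * v j) / N i0 j0, funext fun i => ?_⟩⟩
  change ∑ j, N i j * v j = _ * N i j0
  rw [div_mul_eq_mul_div, eq_div_iff h, Finset.sum_mul, Finset.sum_mul]
  refine Finset.sum_congr rfl (fun j _ => ?_)
  linear_combination v j * hN i i0 j j0

/-- Two pseudo-reflections in a finite group of odd order commute. -/
theorem odd_comm [IsAlgClosed k] {G : Type*} [Group G] [Fintype G] (φ : G →* Matrix n n k)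
    (hodd : Odd (Fintype.card G)) (g h : G)
    (hg : ∀ i i' j j', (φ g - 1) i j * (φ g - 1) i' j' = (φ g - 1) i j' * (φ g - 1) i' j)
    (hh : ∀ i i' j j', (φ h - 1) i j * (φ h - 1) i' j' = (φ h - 1) i j' * (φ h - 1) i' j) :
    φ (g * h) = φ (h * g) := by
  classical
  obtain ⟨u, hu⟩ := image_rank_one _ hg
  obtain ⟨u', hu'⟩ := image_rank_one _ hh
  let W : Submodule k (n → k) := Submodule.span k {u, u'}
  let K : Subgroup G := Subgroup.closure {g, h}
  have hmove : ∀ x ∈ K, ∀ v, φ x *ᵥ v - v ∈ W := by
    intro x hx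
    induction hx using Subgroup.closure_induction with
    | mem x hx =>
      intro v
      rcases hx with rfl | rfl
      · obtain ⟨c, hc⟩ := hu v
        rw [Matrix.sub_mulVec, Matrix.one_mulVec] at hc
        rw [hc]
        exact W.smul_mem c (Submodule.subset_span (Or.inl rfl))
      · obtain ⟨c, hc⟩ := hu' v
        rw [Matrix.sub_mulVec, Matrix.one_mulVec] at hc
        rw [hc]
        exact W.smul_mem c (Submodule.subset_span (Or.inr rfl))
    | one => intro v; simp
    | mul a b _ _ ha hb =>
      intro v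
      rw [map_mul, ← Matrix.mulVec_mulVec]
      simpa using add_mem (ha (φ b *ᵥ v)) (hb v)
    | inv a _ ha =>
      intro v
      have := neg_mem (ha (φ a⁻¹ *ᵥ v))
      rwa [Matrix.mulVec_mulVec, ← map_mul, mul_inv_cancel, map_one, Matrix.one_mulVec,
        neg_sub] at this
  have hW : ∀ x ∈ K, ∀ w ∈ W, φ x *ᵥ w ∈ W := fun x hx w hw => by
    simpa using add_mem (hmove x hx w) hw
  have hgK : g ∈ K := Subgroup.subset_closure (Or.inl rfl)
  have hhK : h ∈ K := Subgroup.subset_closure (Or.inr rfl)
  suffices hcomm : ∀ w ∈ W, φ (g * h) *ᵥ w = φ (h * g) *ᵥ w by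
    set z := (g * h) * (h * g)⁻¹
    have hzK : z ∈ K := K.mul_mem (K.mul_mem hgK hhK) (K.inv_mem (K.mul_mem hhK hgK))
    have hzfix : ∀ w ∈ W, φ z *ᵥ w = w := fun w hw => by
      have hw' := hW _ (K.inv_mem (K.mul_mem hhK hgK)) w hw
      rw [map_mul, ← Matrix.mulVec_mulVec, hcomm _ hw', Matrix.mulVec_mulVec, ← map_mul,
        mul_inv_cancel, map_one, Matrix.one_mulVec]
    have hsq : (φ z - 1) * (φ z - 1) = 0 := by
      refine Matrix.toLin'.injective (LinearMap.ext fun v => ?_)
      simp only [Matrix.toLin'_apply, ← Matrix.mulVec_mulVec, map_zero, LinearMap.zero_apply]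
      have e : ∀ w, (φ z - 1) *ᵥ w = φ z *ᵥ w - w := fun w => by
        rw [Matrix.sub_mulVec, Matrix.one_mulVec]
      rw [e, e v, hzfix _ (hmove z hzK v), sub_self]
    have := eq_one_of_sq_zero φ z hsq
    have h2 : φ (z * (h * g)) = φ (h * g) := by rw [map_mul, this, one_mul]
    simpa [z, mul_assoc] using h2
  by_cases hli : LinearIndependent k ![u, u']
  · let L : Matrix n (Fin 2) k := Matrix.of fun i j => ![u, u'] j i
    have hLinj : Function.Injective L.mulVec := by
      intro a b hab
      have hl := Fintype.linearIndependent_iff.1 hli (a - b) (by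
        funext i
        have := congr_fun hab i
        simp [Matrix.mulVec, dotProduct, L, Fin.sum_univ_two] at this
        simp [Fin.sum_univ_two]
        linear_combination this)
      exact funext fun j => sub_eq_zero.1 (hl j)
    have hcan : ∀ B B' : Matrix (Fin 2) (Fin 2) k, L * B = L * B' → B = B' := fun B B' e =>
      Matrix.toLin'.injective (LinearMap.ext fun v => hLinj (by
        simp only [Matrix.toLin'_apply, Matrix.mulVec_mulVec, e]))
    have hrange : ∀ w ∈ W, ∃ c, L *ᵥ c = w := fun w hw => by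
      obtain ⟨a, b, rfl⟩ := Submodule.mem_span_pair.1 hw
      refine ⟨![a, b], funext fun i => ?_⟩
      simp [Matrix.mulVec, dotProduct, L, Fin.sum_univ_two]
      ring
    have hL : ∀ c, L *ᵥ c ∈ W := fun c => by
      have : L *ᵥ c = c 0 • u + c 1 • u' := funext fun i => by
        simp [Matrix.mulVec, dotProduct, L, Fin.sum_univ_two]; ring
      rw [this]
      exact add_mem (W.smul_mem _ (Submodule.subset_span (Or.inl rfl)))
        (W.smul_mem _ (Submodule.subset_span (Or.inr rfl)))
    have hex : ∀ x : K, ∃ B : Matrix (Fin 2) (Fin 2) k, φ x * L = L * B := fun x => by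
      choose c hc using fun j : Fin 2 =>
        hrange _ (hW x x.2 _ (hL (Pi.single j 1)))
      refine ⟨Matrix.of fun i j => c j i, ?_⟩
      ext i j
      have := congr_fun (hc j) i
      rw [Matrix.mulVec_mulVec, Matrix.mulVec_single_one] at this
      exact this.symm
    choose ψ hψ using hex
    let Ψ : K →* Matrix (Fin 2) (Fin 2) k :=
      { toFun := ψ
        map_one' := hcan _ _ (by rw [← hψ, Subgroup.coe_one, map_one, Matrix.one_mul, Matrix.mul_one])
        map_mul' := fun a b => hcan _ _ (by
          rw [← hψ, Subgroup.coe_mul, map_mul, Matrix.mul_assoc, hψ, ← Matrix.mul_assoc, hψ, Matrix.mul_assoc]) }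
    have hoddK : Odd (Fintype.card K) :=
      hodd.of_dvd_nat (by simpa [Nat.card_eq_fintype_card] using Subgroup.card_subgroup_dvd_card K)
    have hcK := odd_comm_two Ψ hoddK ⟨g, hgK⟩ ⟨h, hhK⟩
    intro w hw
    obtain ⟨c, rfl⟩ := hrange w hw
    have e := fun x : K => hψ x
    rw [Matrix.mulVec_mulVec, Matrix.mulVec_mulVec]
    have h1 := e (⟨g, hgK⟩ * ⟨h, hhK⟩)
    have h2 := e (⟨h, hhK⟩ * ⟨g, hgK⟩)
    simp only [Subgroup.coe_mul] at h1 h2
    rw [h1, h2]
    exact congr_arg (fun X => (L * X) *ᵥ c) hcK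
  · -- both move into one line, on which they act by scalars
    obtain ⟨b, hb⟩ : ∃ b, W ≤ Submodule.span k {b} := by
      rw [LinearIndependent.pair_iff] at hli
      push Not at hli
      obtain ⟨s, t, hst, hne⟩ := hli
      rcases eq_or_ne t 0 with rfl | ht
      · have hs : s ≠ 0 := fun e => hne e rfl
        have hu0 : u = 0 := by simpa [hs] using hst
        refine ⟨u', Submodule.span_le.2 ?_⟩
        intro x hx
        rcases hx with hx | hx
        · rw [hx, hu0]; exact Submodule.zero_mem _
        · rw [Set.mem_singleton_iff.1 hx]; exact Submodule.mem_span_singleton_self _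
      · refine ⟨u, Submodule.span_le.2 ?_⟩
        intro x hx
        rcases hx with hx | hx
        · rw [hx]; exact Submodule.mem_span_singleton_self _
        · rw [Set.mem_singleton_iff.1 hx]
          refine Submodule.mem_span_singleton.2 ⟨-(t⁻¹ * s), ?_⟩
          have : t • u' = -(s • u) := eq_neg_of_add_eq_zero_right hst
          rw [neg_smul, mul_smul, ← smul_neg, ← this, smul_smul, inv_mul_cancel₀ ht, one_smul]
    intro w hw
    rcases eq_or_ne w 0 with rfl | hw0
    · simp
    have hline : ∀ y ∈ W, ∃ c : k, y = c • w := fun y hy => by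
      obtain ⟨a, rfl⟩ := Submodule.mem_span_singleton.1 (hb hy)
      obtain ⟨a', ha'⟩ := Submodule.mem_span_singleton.1 (hb hw)
      have : a' ≠ 0 := fun e => hw0 (by rw [← ha', e, zero_smul])
      exact ⟨a * a'⁻¹, by rw [← ha', smul_smul, inv_mul_cancel_right₀ this]⟩
    obtain ⟨a, ha⟩ := hline _ (hW g hgK w hw)
    obtain ⟨c, hc⟩ := hline _ (hW h hhK w hw)
    simp only [map_mul, ← Matrix.mulVec_mulVec, ha, hc, Matrix.mulVec_smul, smul_smul, mul_comm]

end pseudo

end Vale.Agent.P266.GC
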