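import Vale.Agent.P266.AC.Main
import Vale.Agent.P266.GC.Equiv
import Vale.Agent.P266.GC.Odd

/-! Lipman-Zariski for Galois covers with commuting pseudo-reflections. -/

namespace Vale.Agent.P266.GC

open IsLocalRing Polynomial Vale.Agent.P266.AC

section general

variable {k A R G : Type*} [Field k] [CharZero k] [CommRing A] [IsDomain A] [IsLocalRing A]
  [IsNoetherianRing A] [Algebra k A] [CommRing R] [IsDomain R] [IsLocalRing R] [Algebra k R]
  [Algebra A R] [IsScalarTower k A R] [Group G] [Fintype G] {ρ : G →* (R ≃ₐ[A] R)} {n : ℕ}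

/-- A derivation extending a base derivation commutes with the group. -/
theorem commutes_of_extends (hfix : ∀ r : R, (∀ g, ρ g r = r) → ∃ a : A, algebraMap A R a = r)
    (E : Derivation k R R) (h : ∀ g a, ρ g (E (algebraMap A R a)) = E (algebraMap A R a))
    (g : G) (r : R) : ρ g (E r) = E (ρ g r) := by
  have h1 : conj ρ g E - E = 0 := der_kill_fixed hfix _ (fun a => by
    rw [Derivation.sub_apply, conj_apply, AlgEquiv.commutes, h, sub_self])
  have h2 := Derivation.congr_fun h1 (ρ g r)
  rw [Derivation.sub_apply, conj_apply, act_inv_act, Derivation.zero_apply, sub_eq_zero] at h2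
  exact h2

/-- A regular chart from generators and a frame. -/
theorem chart_of_regular [IsNoetherianRing R] (y : Fin n → R)
    (hy : Ideal.span (Set.range y) = maximalIdeal R)
    (hres : ∀ r : R, ∃ c : k, r - algebraMap k R c ∈ maximalIdeal R)
    (δ : Module.Basis (Fin n) R (Derivation k R R)) : Nonempty (Chart k R n) := by
  classical
  let J : Matrix (Fin n) (Fin n) R := fun i j => δ i (y j)
  have hkill : ∀ (E : Derivation k R R) (I : Ideal R), (∀ j, E (y j) ∈ I) → ∀ r, E r ∈ I :=
    fun E I hE r => der_mem_of_gens (A := R) (R := R) y hy hres (fun a ha => ha) E I hE r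
  have hdet : J.det ≠ 0 := by
    intro h0
    obtain ⟨w, hw0, hw⟩ := Matrix.exists_vecMul_eq_zero_iff.2 h0
    refine hw0 (funext (fun i => ?_))
    have h1 : ∑ i, w i • δ i = 0 := Derivation.ext (fun r => by
      have := hkill (∑ i, w i • δ i) ⊥ (fun j => by
        rw [Ideal.mem_bot, der_sum_apply]
        exact congr_fun hw j) r
      rw [Ideal.mem_bot] at this
      simpa using this)
    exact Fintype.linearIndependent_iff.1 δ.linearIndependent w h1 i
  let E : Fin n → Derivation k R R := fun j => ∑ i, J.adjugate j i • δ i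
  have hE : ∀ j l, E j (y l) = if j = l then J.det else 0 := fun j l => by
    have := congr_fun (congr_fun J.adjugate_mul j) l
    rw [Matrix.mul_apply, Matrix.smul_apply, Matrix.one_apply, smul_eq_mul, mul_ite, mul_one,
      mul_zero] at this
    simp only [E]
    rw [der_sum_apply]
    exact this
  have hdvd : ∀ j r, J.det ∣ E j r := fun j r => Ideal.mem_span_singleton.1
    (hkill (E j) _ (fun l => by
      rw [hE]
      split
      · exact Ideal.mem_span_singleton_self _
      · exact zero_mem _) r)
  choose q hq using hdvd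
  refine ⟨⟨y, fun j => Derivation.mk'
    { toFun := q j
      map_add' := fun a b => mul_left_cancel₀ hdet (by rw [← hq, map_add, mul_add, ← hq, ← hq])
      map_smul' := fun c a => mul_left_cancel₀ hdet (by
        rw [← hq, (E j).map_smul, RingHom.id_apply, mul_smul_comm, hq]) }
    (fun a b => mul_left_cancel₀ hdet ?_), hy, hres, fun j l => mul_left_cancel₀ hdet ?_⟩⟩
  · simp only [LinearMap.coe_mk, AddHom.coe_mk, smul_eq_mul]
    rw [← hq, (E j).leibniz, smul_eq_mul, smul_eq_mul]
    linear_combination a * hq j b + b * hq j a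
  · change J.det * q j (y l) = _
    rw [← hq, hE]
    split <;> simp

end general

variable {k A R G : Type*} [Field k] [IsAlgClosed k] [CharZero k] [CommRing A] [IsDomain A]
  [IsLocalRing A] [IsNoetherianRing A] [UniqueFactorizationMonoid A] [Algebra k A] [CommRing R]
  [IsDomain R] [IsIntegrallyClosed R] [IsLocalRing R] [IsNoetherianRing R] [Algebra k R]
  [Algebra A R] [IsScalarTower k A R] [Module.Finite A R] [Group G] [Fintype G]
  {ρ : G →* (R ≃ₐ[A] R)} {n : ℕ}

omit [IsAlgClosed k] [CharZero k] [Algebra k A] [Algebra k R] [IsScalarTower k A R] [IsDomain A]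
  [IsLocalRing A] [IsNoetherianRing A] [UniqueFactorizationMonoid A] [IsDomain R]
  [IsIntegrallyClosed R] [IsLocalRing R] [IsNoetherianRing R] [Module.Finite A R] [Fintype G] in
/-- The fixed algebra of a subgroup. -/
theorem fix_aux (K : Subgroup G) [K.Normal] (g : G) {r : R} (hr : ∀ h ∈ K, ρ h r = r) :
    ∀ h ∈ K, ρ h (ρ g r) = ρ g r := fun h hh => by
  have : ρ (g⁻¹ * h * g) r = r := hr _ (by
    simpa using Subgroup.Normal.conj_mem (inferInstance : K.Normal) h hh g⁻¹)
  conv_rhs => rw [← this]
  simp only [act_act]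
  congr 2
  group

def fixA (ρ : G →* (R ≃ₐ[A] R)) (K : Subgroup G) : Subalgebra A R where
  carrier := {r | ∀ g ∈ K, ρ g r = r}
  mul_mem' := fun {a b} ha hb g hg => by rw [map_mul, ha g hg, hb g hg]
  add_mem' := fun {a b} ha hb g hg => by rw [map_add, ha g hg, hb g hg]
  algebraMap_mem' := fun c g _ => by rw [AlgEquiv.commutes]

/-- The commutative case. -/
theorem regular_of_comm (H : Cov ρ) (C : Chart k A n) (hdim : ringKrullDim A = n)
    (δ : Module.Basis (Fin n) R (Derivation k R R)) (M : G → Matrix (Fin n) (Fin n) k)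
    (hM1 : M 1 = 1) (hMmul : ∀ g h, M (g * h) = M h * M g)
    (hconj : ∀ g i, conj ρ g (δ i) = ∑ j, algebraMap k R (M g i j) • δ j)
    (hcomm : ∀ g h, M (g * h) = M (h * g)) : IsRegularLocalRing R := by
  classical
  let K : Subgroup G :=
    { carrier := {g | M g = 1}
      one_mem' := hM1
      mul_mem' := fun {a b} (ha : M a = 1) (hb : M b = 1) => by
        change M (a * b) = 1
        rw [hMmul, ha, hb, one_mul]
      inv_mem' := fun {a} (ha : M a = 1) => by
        change M a⁻¹ = 1
        have := hMmul a⁻¹ a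
        rwa [inv_mul_cancel, hM1, ha, one_mul, eq_comm] at this }
  haveI : K.Normal := ⟨fun a (ha : M a = 1) g => by
    change M (g * a * g⁻¹) = 1
    rw [hcomm, ← mul_assoc, inv_mul_cancel, one_mul, ha]⟩
  letI : CommGroup (G ⧸ K) :=
    { (inferInstance : Group (G ⧸ K)) with
      mul_comm := fun a b => by
        induction a using QuotientGroup.induction_on with
        | _ a =>
          induction b using QuotientGroup.induction_on with
          | _ b =>
            rw [← QuotientGroup.mk_mul, ← QuotientGroup.mk_mul, QuotientGroup.eq]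
            change M ((a * b)⁻¹ * (b * a)) = 1
            rw [hMmul, hcomm b a, ← hMmul, inv_mul_cancel, hM1] }
  have hδfix : ∀ g ∈ K, ∀ i r, ρ g (δ i r) = δ i (ρ g r) := fun g (hg : M g = 1) i r => by
    have h1 := Derivation.congr_fun (hconj g i) (ρ g r)
    rw [conj_apply, act_inv_act, der_sum_apply] at h1
    rw [h1, hg]
    simp [Matrix.one_apply, apply_ite (algebraMap k R)]
  let S := fixA ρ K
  have hmemS : ∀ r, r ∈ S ↔ ∀ g ∈ K, ρ g r = r := fun r => Iff.rfl
  haveI : Module.Finite A S := Module.Finite.of_injective S.val.toLinearMap Subtype.val_injective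
  haveI : IsNoetherianRing S := IsNoetherianRing.of_finite A S
  have hunit : ∀ s : S, IsUnit (s : R) → IsUnit s := fun s hs => by
    obtain ⟨r, hr⟩ := hs.exists_right_inv
    have hrS : r ∈ S := fun g hg => mul_left_cancel₀ hs.ne_zero (by
      conv_lhs => rw [← s.2 g hg, ← map_mul, hr, map_one]
      exact hr.symm)
    exact IsUnit.of_mul_eq_one ⟨r, hrS⟩ (Subtype.ext hr)
  haveI : IsLocalRing S := IsLocalRing.of_isUnit_or_isUnit_one_sub_self (fun a =>
    (IsLocalRing.isUnit_or_isUnit_one_sub_self (a : R)).imp (hunit a) (fun h => hunit _ (by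
      simpa using h)))
  have hmax : ∀ s : S, s ∈ maximalIdeal S ↔ (s : R) ∈ maximalIdeal R := fun s => by
    rw [mem_maximalIdeal, mem_maximalIdeal, mem_nonunits_iff, mem_nonunits_iff]
    exact not_congr ⟨fun h => h.map S.val, hunit s⟩
  haveI : IsIntegrallyClosed S := by
    refine (isIntegrallyClosed_iff (FractionRing S)).2 (fun {z} hz => ?_)
    let L := FractionRing R
    have hj : Function.Injective ((algebraMap R L).comp (S.val : S →+* R)) :=
      (IsFractionRing.injective R L).comp Subtype.val_injective
    let ψ : FractionRing S →+* L := IsFractionRing.lift hj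
    have hψ : ∀ s, ψ (algebraMap S (FractionRing S) s) = algebraMap R L s :=
      fun s => IsFractionRing.lift_algebraMap hj s
    obtain ⟨p, hp, hpz⟩ := hz
    have hint : IsIntegral R (ψ z) := ⟨p.map (S.val : S →+* R), hp.map _, by
      rw [eval₂_map]
      have := congr_arg ψ hpz
      rw [hom_eval₂, map_zero] at this
      refine (congrArg (fun f => eval₂ f (ψ z) p) ?_).trans this
      exact (RingHom.ext (f := ψ.comp (algebraMap S (FractionRing S))) (g := (algebraMap R L).comp (S.val : S →+* R)) hψ).symm⟩
    obtain ⟨r, hr⟩ := IsIntegrallyClosed.algebraMap_eq_of_integral hint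
    obtain ⟨a, b, hb, hz⟩ := IsFractionRing.div_surjective (A := S) z
    have hb0 : (b : R) ≠ 0 := fun e => nonZeroDivisors.ne_zero hb (Subtype.ext e)
    have hrb : r * (b : R) = a := IsFractionRing.injective R L (by
      rw [map_mul, hr, ← hz, map_div₀, hψ, hψ, div_mul_cancel₀]
      exact (map_ne_zero_iff _ (IsFractionRing.injective R L)).2 hb0)
    have hrS : r ∈ S := fun g hg => mul_right_cancel₀ hb0 (by
      rw [hrb]
      conv_lhs => rw [← b.2 g hg, ← map_mul, hrb]
      exact a.2 g hg)
    refine ⟨⟨r, hrS⟩, ?_⟩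
    have hbS : algebraMap S (FractionRing S) b ≠ 0 :=
      (map_ne_zero_iff _ (IsFractionRing.injective S _)).2 (nonZeroDivisors.ne_zero hb)
    rw [← hz, eq_div_iff hbS, ← map_mul]
    congr 1
    exact Subtype.ext hrb
  -- the quotient acts on `S`
  let σ0 : G →* (S ≃ₐ[A] S) :=
    { toFun := fun g => AlgEquiv.ofAlgHom
        ((((ρ g) : R →ₐ[A] R).comp S.val).codRestrict S (fun s => fix_aux K g s.2))
        ((((ρ g⁻¹) : R →ₐ[A] R).comp S.val).codRestrict S (fun s => fix_aux K g⁻¹ s.2))
        (AlgHom.ext fun s => Subtype.ext (act_act_inv ρ g _))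
        (AlgHom.ext fun s => Subtype.ext (act_inv_act ρ g _))
      map_one' := AlgEquiv.ext fun s => Subtype.ext (by simp)
      map_mul' := fun g h => AlgEquiv.ext fun s => Subtype.ext (act_act ρ g h _).symm }
  have hσ0 : ∀ g (s : S), ((σ0 g s : S) : R) = ρ g s := fun g s => rfl
  let σ : (G ⧸ K) →* (S ≃ₐ[A] S) := QuotientGroup.lift K σ0 (fun g hg =>
    AlgEquiv.ext fun s => Subtype.ext (by rw [hσ0]; exact s.2 g hg))
  haveI : Fintype (G ⧸ K) := Fintype.ofFinite _
  have hfixσ : ∀ s : S, (∀ g, σ g s = s) → ∃ a : A, algebraMap A S a = s := fun s hs => by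
    obtain ⟨a, ha⟩ := H.fixed (s : R) (fun g => by
      rw [← hσ0]
      exact congr_arg Subtype.val (hs (QuotientGroup.mk g)))
    exact ⟨a, Subtype.ext ha⟩
  have hinjS : Function.Injective (algebraMap A S) := fun a b e =>
    H.inj (congr_arg Subtype.val e)
  have H' : IsCover σ := ⟨hinjS, hfixσ⟩
  -- derivations of `S`
  have hδS : ∀ i (s : S), δ i s ∈ S := fun i s g hg => by rw [hδfix g hg, s.2 g hg]
  let δS : Fin n → Derivation k S S := fun i => Derivation.mk'
    { toFun := fun s => ⟨δ i s, hδS i s⟩
      map_add' := fun a b => Subtype.ext (by simp)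
      map_smul' := fun c a => Subtype.ext (by simp) }
    (fun a b => Subtype.ext (by simp))
  have hδS' : ∀ i (s : S), ((δS i s : S) : R) = δ i s := fun i s => rfl
  have hsumS : ∀ (c : Fin n → S) (s : S),
      (((∑ i, c i • δS i) s : S) : R) = ∑ i, (c i : R) * δ i s := fun c s => by
    rw [der_sum_apply]
    simp [hδS']
  have hli : LinearIndependent S δS := by
    rw [Fintype.linearIndependent_iff]
    intro c hc i
    refine Subtype.ext (Fintype.linearIndependent_iff.1 δ.linearIndependent (fun i => (c i : R))
      (H.der_kill _ (fun a => ?_)) i)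
    have := congr_arg (fun D : Derivation k S S => ((D (algebraMap A S a) : S) : R)) hc
    simp only [hsumS, Derivation.zero_apply, ZeroMemClass.coe_zero] at this
    rw [der_sum_apply]
    exact this
  choose El al hal hEl using fun l => H.exists_extend (C.d l)
  have hspan : ∀ D : Derivation k S S, ∃ c : Fin n → S, D = ∑ i, c i • δS i := by
    intro D
    let a : A := ∏ l, al l
    have ha : a ≠ 0 := Finset.prod_ne_zero_iff.2 (fun l _ => hal l)
    let E : Derivation k R R := ∑ l, (algebraMap A R (∏ m ∈ Finset.univ.erase l, al m) *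
      ((D (algebraMap A S (C.x l)) : S) : R)) • El l
    have hEA : ∀ b : A, E (algebraMap A R b)
        = algebraMap A R a * ((D (algebraMap A S b) : S) : R) := by
      intro b
      let incl : Derivation k A R := Derivation.mk'
        { toFun := fun b => E (algebraMap A R b)
            - algebraMap A R a * ((D (algebraMap A S b) : S) : R)
          map_add' := fun p q => by simp only [map_add, Subalgebra.coe_add]; ring
          map_smul' := fun c p => by
            simp only [RingHom.id_apply, Algebra.smul_def, map_mul,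
              ← IsScalarTower.algebraMap_apply, D.leibniz, E.leibniz, Derivation.map_algebraMap,
              smul_eq_mul, Subalgebra.coe_add, Subalgebra.coe_mul, mul_zero, add_zero]
            rw [show ((algebraMap k S c : S) : R) = algebraMap k R c from rfl]
            ring }
        (fun p q => by
          simp only [LinearMap.coe_mk, AddHom.coe_mk, Algebra.smul_def, map_mul, E.leibniz,
            Algebra.algebraMap_self, RingHom.id_apply,
            D.leibniz, smul_eq_mul, Subalgebra.coe_add, Subalgebra.coe_mul,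
            Subalgebra.coe_algebraMap]
          ring)
      have := der_mem_of_gens (A := A) C.x C.span_x C.res H.local_hom incl ⊥ (fun j => by
        rw [Ideal.mem_bot]
        change E _ - _ = 0
        rw [sub_eq_zero]
        simp only [E]
        rw [der_sum_apply, Finset.sum_eq_single j]
        · rw [hEl, C.dual, if_pos rfl, mul_one, mul_right_comm, ← map_mul,
            Finset.prod_erase_mul _ _ (Finset.mem_univ j)]
        · intro l _ hl
          rw [hEl, C.dual, if_neg hl, mul_zero, map_zero, mul_zero]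
        · simp) b
      rw [Ideal.mem_bot] at this
      exact sub_eq_zero.1 this
    have hEK : ∀ g ∈ K, ∀ r, ρ g (E r) = E (ρ g r) := fun g hg r => by
      have h1 : conj ρ g E - E = 0 := H.der_kill _ (fun b => by
        rw [Derivation.sub_apply, conj_apply, AlgEquiv.commutes, hEA, map_mul, AlgEquiv.commutes,
          (D (algebraMap A S b)).2 g hg, sub_self])
      have h2 := Derivation.congr_fun h1 (ρ g r)
      rw [Derivation.sub_apply, conj_apply, act_inv_act, Derivation.zero_apply, sub_eq_zero] at h2
      exact h2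
    let ES : Derivation k S S := Derivation.mk'
      { toFun := fun s => ⟨E s, fun g hg => by rw [hEK g hg, s.2 g hg]⟩
        map_add' := fun a b => Subtype.ext (by simp)
        map_smul' := fun c a => Subtype.ext (by simp) }
      (fun a b => Subtype.ext (by simp))
    have hES : ES - algebraMap A S a • D = 0 := der_kill_fixed (ρ := σ) hfixσ _ (fun b => by
      refine Subtype.ext ?_
      rw [Derivation.sub_apply, Derivation.smul_apply, smul_eq_mul]
      change E (algebraMap A R b) - algebraMap A R a * ((D (algebraMap A S b) : S) : R) = 0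
      rw [hEA, sub_self])
    have hES' : ∀ s : S, E s = algebraMap A R a * ((D s : S) : R) := fun s => by
      have := congr_arg Subtype.val (sub_eq_zero.1 (Derivation.congr_fun hES s :
        ES s - algebraMap A S a * D s = 0))
      exact this
    have hdiv : ∀ r, algebraMap A R a ∣ E r := fun r =>
      dvd_of_fixed H K E ha (fun c hc => ⟨_, hES' ⟨c, hc⟩⟩) (fun p Q hp hQ hQc g hgK hgI => by
        haveI := hQ
        rw [inertia_eq_one H C δ hp hQc hgI (hδfix g hgK), map_one, AlgEquiv.one_apply])
    choose q hq using hdiv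
    have ha' : algebraMap A R a ≠ 0 := (map_ne_zero_iff _ H.inj).2 ha
    let D' : Derivation k R R := Derivation.mk'
      { toFun := q
        map_add' := fun x y => mul_left_cancel₀ ha' (by rw [← hq, map_add, mul_add, ← hq, ← hq])
        map_smul' := fun c x => mul_left_cancel₀ ha' (by
          rw [← hq, E.map_smul, RingHom.id_apply, mul_smul_comm, hq]) }
      (fun x y => mul_left_cancel₀ ha' (by
        simp only [LinearMap.coe_mk, AddHom.coe_mk, smul_eq_mul]
        rw [← hq, E.leibniz, smul_eq_mul, smul_eq_mul]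
        linear_combination x * hq y + y * hq x))
    have hD' : ∀ g ∈ K, ∀ r, ρ g (D' r) = D' (ρ g r) := fun g hg r => mul_left_cancel₀ ha' (by
      conv_rhs => rw [show D' (ρ g r) = q (ρ g r) from rfl, ← hq, ← hEK g hg, hq, map_mul,
        AlgEquiv.commutes]
      rfl)
    have hc : ∀ i, δ.repr D' i ∈ S := fun i g hg => by
      have h1 : ∑ j, (ρ g (δ.repr D' j) - δ.repr D' j) • δ j = 0 := Derivation.ext (fun r => by
        have h2 : ∀ r, D' r = ∑ j, δ.repr D' j * δ j r := fun r => by
          conv_lhs => rw [← δ.sum_repr D']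
          rw [der_sum_apply]
        have h3 := hD' g hg (ρ g⁻¹ r)
        rw [act_act_inv, h2, h2, map_sum] at h3
        simp only [map_mul, hδfix g hg, act_act_inv] at h3
        rw [der_sum_apply, Derivation.zero_apply]
        simp only [sub_mul, Finset.sum_sub_distrib]
        rw [h3, sub_self])
      exact sub_eq_zero.1 (Fintype.linearIndependent_iff.1 δ.linearIndependent _ h1 i)
    refine ⟨fun i => ⟨_, hc i⟩, Derivation.ext fun s => Subtype.ext ?_⟩
    rw [hsumS]
    have h2 : D' (s : R) = ∑ j, δ.repr D' j * δ j (s : R) := by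
      conv_lhs => rw [← δ.sum_repr D']
      rw [der_sum_apply]
    rw [← h2]
    exact mul_left_cancel₀ ha' ((hES' s).symm.trans (hq s))
  let bS : Module.Basis (Fin n) S (Derivation k S S) := Module.Basis.mk hli (by
    intro D _
    obtain ⟨c, rfl⟩ := hspan D
    exact Submodule.sum_mem _ (fun i _ => Submodule.smul_mem _ _ (Submodule.subset_span ⟨i, rfl⟩)))
  haveI : Module.Free S (Derivation k S S) := Module.Free.of_basis bS
  obtain ⟨F⟩ := H'.exists_frame C
  haveI hreg : IsRegularLocalRing S := F.regular C hdim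
  -- a chart on `S`
  have hle : (maximalIdeal S).spanFinrank ≤ n := by
    have h1 : ((maximalIdeal S).spanFinrank : WithBot ℕ∞) = ringKrullDim S :=
      IsRegularLocalRing.spanFinrank_maximalIdeal
    have h2 : ringKrullDim S ≤ ringKrullDim A :=
      Order.krullDim_le_of_strictMono (PrimeSpectrum.comap (algebraMap A S))
        (fun p q (hpq : p.asIdeal < q.asIdeal) => Ideal.IsIntegral.comap_lt_comap hpq)
    rw [← h1, hdim, Nat.cast_le] at h2
    exact h2
  obtain ⟨y, hy⟩ : ∃ y : Fin n → S, Ideal.span (Set.range y) = maximalIdeal S := by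
    obtain ⟨s, hs, hspan'⟩ :=
      (IsNoetherian.noetherian (maximalIdeal S)).exists_span_finset_card_eq_spanFinrank
    let e := s.equivFin
    refine ⟨fun i => if h : (i : ℕ) < s.card then (e.symm ⟨i, h⟩ : S) else 0, le_antisymm ?_ ?_⟩
    · rw [Ideal.span_le]
      rintro _ ⟨i, rfl⟩
      dsimp only
      split
      · rw [SetLike.mem_coe, ← hspan']
        exact Submodule.subset_span (e.symm _).2
      · exact zero_mem _
    · rw [← hspan', Ideal.span, Submodule.span_le]
      intro x hx
      refine Submodule.subset_span ⟨⟨e ⟨x, hx⟩, lt_of_lt_of_le (e ⟨x, hx⟩).2 (hs ▸ hle)⟩, ?_⟩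
      simp [e]
  obtain ⟨CS⟩ := chart_of_regular y hy (fun s => by
    obtain ⟨c, hc⟩ := H.exists_res C (s : R)
    exact ⟨c, (hmax _).2 hc⟩) bS
  -- `R` is étale over `S`, hence equal to it
  let ρK : K →* (R ≃ₐ[S] R) :=
    { toFun := fun g => AlgEquiv.ofRingEquiv (f := (ρ g : R ≃+* R)) (fun s => s.2 g g.2)
      map_one' := AlgEquiv.ext fun r => by change ρ (1 : K).1 r = r; simp
      map_mul' := fun g h => AlgEquiv.ext fun r => (act_act ρ g h r).symm }
  have HK : Cov ρK := ⟨Subtype.val_injective, fun r hr => ⟨⟨r, fun g hg => hr ⟨g, hg⟩⟩, rfl⟩,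
    fun g h e => Subtype.ext (H.faith (AlgEquiv.ext fun r => AlgEquiv.congr_fun e r))⟩
  haveI : IsScalarTower k S R := IsScalarTower.of_algebraMap_eq (fun c => rfl)
  have hall : ∀ r : R, ∃ s : S, algebraMap S R s = r := fun r => by
    choose c hc using fun l => hspan (CS.d l)
    refine eq_base HK CS (H.exists_res C) ⊤ (fun _ _ _ => Algebra.mem_top)
      (fun l r => ∑ i, (c l i : R) * δ i r) (fun _ _ _ => Algebra.mem_top) ?_ ?_ ?_ ?_
      (Algebra.mem_top (R := k) (x := r))
    · intro l x _ y _
      simp only [map_add, mul_add, Finset.sum_add_distrib]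
    · intro l x _ y _
      simp only [Derivation.leibniz, smul_eq_mul, Finset.mul_sum, ← Finset.sum_add_distrib]
      exact Finset.sum_congr rfl (fun i _ => by ring)
    · intro l g x _
      change ρ g (∑ i, (c l i : R) * δ i x) = ∑ i, (c l i : R) * δ i (ρ g x)
      rw [map_sum]
      exact Finset.sum_congr rfl (fun i _ => by
        rw [map_mul, (c l i).2 g g.2, hδfix g g.2])
    · intro l s
      change ∑ i, (c l i : R) * δ i (s : R) = ((CS.d l s : S) : R)
      rw [hc l, hsumS]
  exact IsRegularLocalRing.of_ringEquiv (RingEquiv.ofBijective (algebraMap S R)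
    ⟨Subtype.val_injective, hall⟩)

/-- The main theorem, in the faithful case. -/
theorem regular_main (H : Cov ρ) (C : Chart k A n) (hdim : ringKrullDim A = n)
    [Module.Free R (Derivation k R R)]
    (hcase : Odd (Fintype.card G) ∨ ∀ (g h : G) (D : Derivation k R R),
      conj ρ (g * h) D - conj ρ (h * g) D
        ∈ maximalIdeal R • (⊤ : Submodule R (Derivation k R R))) :
    IsRegularLocalRing R := by
  classical
  obtain ⟨δ, M, hM1, hMmul, hconj⟩ := H.exists_frame C
  rcases hcase with hodd | hcomm
  swap
  · refine regular_of_comm H C hdim δ M hM1 hMmul hconj (fun g h => ?_)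
    ext i j
    by_contra hne
    have h1 := repr_mem (B := δ) (hcomm g h (δ i)) j
    rw [hconj, hconj, map_sub] at h1
    simp only [map_sum, map_smul, Finsupp.sub_apply, Finsupp.finsetSum_apply, Finsupp.smul_apply,
      Module.Basis.repr_self, Finsupp.single_apply, smul_eq_mul, mul_ite, mul_one, mul_zero,
      Finset.sum_ite_eq', Finset.mem_univ, if_true, ← map_sub] at h1
    exact h1 ((IsUnit.mk0 _ (sub_ne_zero.2 hne)).map (algebraMap k R))
  let gens : Set G := {g | ∃ (p : A) (Q : Ideal R), Prime p ∧ Q.IsPrime ∧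
    Q.comap (algebraMap A R) = Ideal.span {p} ∧ g ∈ inertia ρ Q}
  let W : Subgroup G := Subgroup.closure gens
  have hgens : ∀ (h : G), ∀ g ∈ gens, h⁻¹ * g * h ∈ gens := by
    rintro h g ⟨p, Q, hp, hQ, hQc, hg⟩
    refine ⟨p, Q.comap (ρ h : R →+* R), hp, Ideal.IsPrime.comap _, ?_, fun r => ?_⟩
    · rw [Ideal.comap_comap]
      have : (ρ h : R →+* R).comp (algebraMap A R) = algebraMap A R :=
        RingHom.ext (fun a => (ρ h).commutes a)
      rw [this, hQc]
    · change ρ h (ρ (h⁻¹ * g * h) r - r) ∈ Q
      rw [map_sub, act_act, show h * (h⁻¹ * g * h) = g * h by group, ← act_act]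
      exact hg _
  have hfixW : ∀ r, (∀ g ∈ W, ρ g r = r) ↔ ∀ g ∈ gens, ρ g r = r := fun r =>
    ⟨fun h g hg => h g (Subgroup.subset_closure hg), fun h g hg => by
      induction hg using Subgroup.closure_induction with
      | mem x hx => exact h x hx
      | one => simp
      | mul a b _ _ ha hb => rw [← act_act, hb, ha]
      | inv a _ ha => conv_lhs => rw [← ha, act_inv_act]⟩
  choose E a ha hE using fun l => H.exists_extend (C.d l)
  have hEG : ∀ l g r, ρ g (E l r) = E l (ρ g r) := fun l => commutes_of_extends H.fixed (E l)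
    (fun g b => by rw [hE, AlgEquiv.commutes])
  have hdiv : ∀ l, ∀ s ∈ fixS k ρ W, algebraMap A R (a l) ∣ E l s := fun l s hs =>
    dvd_of_fixed H ⊤ (E l) (ha l) (fun c hc => by
      obtain ⟨b, rfl⟩ := H.fixed c (fun g => hc g (Subgroup.mem_top g))
      rw [hE, map_mul]; exact dvd_mul_right _ _)
      (fun p Q hp hQ hQc g _ hg => hs g (Subgroup.subset_closure ⟨p, Q, hp, hQ, hQc, hg⟩))
  let d : Fin n → R → R := fun l s =>
    if h : algebraMap A R (a l) ∣ E l s then h.choose else 0
  have hd : ∀ l, ∀ s ∈ fixS k ρ W, E l s = algebraMap A R (a l) * d l s := fun l s hs => by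
    simp only [d, dif_pos (hdiv l s hs)]
    exact (hdiv l s hs).choose_spec
  have ha' : ∀ l, algebraMap A R (a l) ≠ 0 := fun l => (map_ne_zero_iff _ H.inj).2 (ha l)
  have hgS : ∀ g, ∀ s ∈ fixS k ρ W, ρ g s ∈ fixS k ρ W := fun g s hs =>
    (hfixW _).2 (fun w hw => by
      rw [act_act, show w * g = g * (g⁻¹ * w * g) by group, ← act_act,
        hs _ (Subgroup.subset_closure (hgens g w hw))])
  have hdg : ∀ l g, ∀ s ∈ fixS k ρ W, ρ g (d l s) = d l (ρ g s) := fun l g s hs =>
    mul_left_cancel₀ (ha' l) (by
      rw [← hd l _ (hgS g s hs), ← hEG, hd l s hs, map_mul, AlgEquiv.commutes])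
  have hW : ∀ r, (∀ g ∈ W, ρ g r = r) → ∃ b : A, algebraMap A R b = r := fun r hr =>
    eq_base H C (H.exists_res C) (fixS k ρ W) hgS d
      (fun l s hs g hg => by rw [hdg l g s hs, hs g hg])
      (fun l s hs t ht => mul_left_cancel₀ (ha' l) (by
        rw [← hd l _ (add_mem hs ht), map_add, mul_add, ← hd l s hs, ← hd l t ht]))
      (fun l s hs t ht => mul_left_cancel₀ (ha' l) (by
        rw [← hd l _ (mul_mem hs ht), (E l).leibniz, smul_eq_mul, smul_eq_mul, hd l s hs,
          hd l t ht]
        ring))
      hdg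
      (fun l b => mul_left_cancel₀ (ha' l) (by
        rw [← hd l _ (fun g _ => (ρ g).commutes b), hE, map_mul]))
      hr
  let φ : G →* Matrix (Fin n) (Fin n) k :=
    { toFun := fun g => M g⁻¹
      map_one' := by rw [inv_one, hM1]
      map_mul' := fun g h => by rw [mul_inv_rev, hMmul] }
  have hpr : ∀ g ∈ gens, ∀ i i' j j', (φ g - 1) i j * (φ g - 1) i' j'
      = (φ g - 1) i j' * (φ g - 1) i' j := by
    rintro g ⟨p, Q, hp, hQ, hQc, hg⟩
    haveI := hQ
    refine inertia_rank H C δ hp hQc ((inertia ρ Q).inv_mem hg) (φ g - 1) (fun i r => ?_)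
    rw [← conj_apply, hconj, der_sum_apply]
    change ∑ j, algebraMap k R (M g⁻¹ i j) * δ j r = _
    simp only [Matrix.sub_apply, map_sub, sub_mul, Finset.sum_sub_distrib, φ, MonoidHom.coe_mk,
      OneHom.coe_mk, Matrix.one_apply, apply_ite (algebraMap k R), map_one, map_zero, ite_mul,
      one_mul, zero_mul, Finset.sum_ite_eq, Finset.mem_univ, if_true]
    ring
  have hcW : ∀ g ∈ W, ∀ h ∈ W, φ (g * h) = φ (h * g) := by
    intro g hg
    induction hg using Subgroup.closure_induction with
    | mem x hx =>
      intro h hh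
      induction hh using Subgroup.closure_induction with
      | mem y hy => exact odd_comm φ hodd x y (hpr x hx) (hpr y hy)
      | one => simp
      | mul a b _ _ p q =>
        simp only [map_mul] at p q ⊢
        exact Commute.mul_right (a := φ x) p q
      | inv a _ p =>
        simp only [map_mul] at p ⊢
        calc φ x * φ a⁻¹ = (φ a⁻¹ * φ a) * (φ x * φ a⁻¹) := by
              rw [← map_mul φ a⁻¹ a, inv_mul_cancel, map_one, one_mul]
          _ = φ a⁻¹ * (φ a * φ x) * φ a⁻¹ := by simp only [mul_assoc]
          _ = φ a⁻¹ * (φ x * φ a) * φ a⁻¹ := by rw [p]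
          _ = φ a⁻¹ * φ x := by
              simp only [mul_assoc]
              rw [← map_mul φ a, mul_inv_cancel, map_one, mul_one]
    | one => simp
    | mul a b _ _ p q =>
      intro h hh
      have p' := p h hh
      have q' := q h hh
      simp only [map_mul] at p' q' ⊢
      exact Commute.mul_left (c := φ h) p' q'
    | inv a _ p =>
      intro h hh
      have p' := p h hh
      simp only [map_mul] at p' ⊢
      calc φ a⁻¹ * φ h = φ a⁻¹ * φ h * (φ a * φ a⁻¹) := by
            rw [← map_mul φ a, mul_inv_cancel, map_one, mul_one]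
        _ = φ a⁻¹ * (φ h * φ a) * φ a⁻¹ := by simp only [mul_assoc]
        _ = φ a⁻¹ * (φ a * φ h) * φ a⁻¹ := by rw [p']
        _ = φ h * φ a⁻¹ := by
            rw [← mul_assoc (φ a⁻¹), ← map_mul φ a⁻¹ a, inv_mul_cancel, map_one, one_mul]
  let ρW : W →* (R ≃ₐ[A] R) := ρ.comp W.subtype
  have HW : Cov ρW := ⟨H.inj, fun r hr => hW r (fun g hg => hr ⟨g, hg⟩),
    H.faith.comp W.subtype_injective⟩
  refine regular_of_comm HW C hdim δ (fun g : W => M g) hM1 (fun g h => hMmul g h)
    (fun g i => hconj g i) (fun g h => ?_)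
  have := hcW _ (W.inv_mem h.2) _ (W.inv_mem g.2)
  simpa [φ, mul_inv_rev] using this

end Vale.Agent.P266.GC
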