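import Vale.Agent.P266.GC.Ext

/-! A finite Galois extension of a chart to which all partial derivatives lift is trivial. -/

namespace Vale.Agent.P266.GC

open IsLocalRing Polynomial Vale.Agent.P266.AC

variable {k A R G : Type*} [Field k] [CharZero k] [CommRing A] [IsDomain A] [IsLocalRing A]
  [IsNoetherianRing A] [Algebra k A] [CommRing R] [IsDomain R] [IsLocalRing R] [Algebra k R]
  [Algebra A R] [IsScalarTower k A R] [Group G] [Fintype G] {ρ : G →* (R ≃ₐ[A] R)} {n : ℕ}

omit [CharZero k] [IsDomain R] [IsDomain A] [IsNoetherianRing A] [IsLocalRing A] [Fintype G] in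
theorem act_max (g : G) {r : R} (h : r ∈ maximalIdeal R) : ρ g r ∈ maximalIdeal R := by
  rw [mem_maximalIdeal, mem_nonunits_iff] at h ⊢
  intro hu
  exact h (by simpa [act_inv_act] using hu.map (ρ g⁻¹))

theorem eq_base (H : Cov ρ) (C : Chart k A n)
    (hres : ∀ r : R, ∃ c : k, r - algebraMap k R c ∈ maximalIdeal R)
    (S : Subalgebra k R) (hS : ∀ g, ∀ s ∈ S, ρ g s ∈ S) (δ : Fin n → R → R)
    (hmem : ∀ l, ∀ s ∈ S, δ l s ∈ S)
    (hadd : ∀ l, ∀ s ∈ S, ∀ t ∈ S, δ l (s + t) = δ l s + δ l t)
    (hmul : ∀ l, ∀ s ∈ S, ∀ t ∈ S, δ l (s * t) = s * δ l t + t * δ l s)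
    (hcomm : ∀ l g, ∀ s ∈ S, ρ g (δ l s) = δ l (ρ g s))
    (hA : ∀ l a, δ l (algebraMap A R a) = algebraMap A R (C.d l a))
    {s : R} (hs : s ∈ S) : ∃ a : A, algebraMap A R a = s := by
  classical
  set N := Fintype.card G with hN
  have hNk : (N : k) ≠ 0 := Nat.cast_ne_zero.2 Fintype.card_ne_zero
  have hsum : ∀ r, ∃ a : A, algebraMap A R a = ∑ g : G, ρ g r := fun r => H.fixed _ (fun h => by
    rw [map_sum]
    exact Fintype.sum_equiv (Equiv.mulLeft h) _ _ (fun g => by
      simp only [Equiv.coe_mulLeft, act_act]))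
  choose tr htr using hsum
  have tr_add : ∀ a b, tr (a + b) = tr a + tr b := fun a b => H.inj (by
    rw [map_add, htr, htr, htr, ← Finset.sum_add_distrib]; simp only [map_add])
  have δ0 : ∀ l, δ l 0 = 0 := fun l => by simpa using hA l 0
  have δsum : ∀ l (T : Finset G) (f : G → R), (∀ i ∈ T, f i ∈ S) →
      δ l (∑ i ∈ T, f i) = ∑ i ∈ T, δ l (f i) := by
    intro l T f hf
    induction T using Finset.induction_on with
    | empty => simp [δ0]
    | insert a T ha ih =>
      rw [Finset.sum_insert ha, Finset.sum_insert ha, hadd l _ (hf a (Finset.mem_insert_self a T)) _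
        (Subalgebra.sum_mem _ fun i hi => hf i (Finset.mem_insert_of_mem hi)),
        ih fun i hi => hf i (Finset.mem_insert_of_mem hi)]
  have tr_δ : ∀ l, ∀ r ∈ S, C.d l (tr r) = tr (δ l r) := fun l r hr => H.inj (by
    rw [← hA, htr, htr, δsum l _ _ (fun g _ => hS g r hr)]
    exact Finset.sum_congr rfl (fun g _ => (hcomm l g r hr).symm))
  have trmax : ∀ r ∈ maximalIdeal R, tr r ∈ maximalIdeal A := fun r hr => by
    rw [mem_maximalIdeal, mem_nonunits_iff]
    intro hu
    have := hu.map (algebraMap A R)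
    rw [htr] at this
    exact (Submodule.sum_mem _ (fun g _ => act_max g hr) : _ ∈ maximalIdeal R) this
  have hzero : ∀ r, tr r = 0 → r ∈ maximalIdeal R := fun r hr => by
    obtain ⟨c, hc⟩ := hres r
    have h1 : algebraMap k R ((N : k) * c) ∈ maximalIdeal R := by
      have e : ∑ g : G, ρ g (r - algebraMap k R c) = - algebraMap k R ((N : k) * c) := by
        simp only [map_sub, act_algk, Finset.sum_sub_distrib, ← htr, hr, map_zero]
        simp [hN, Finset.sum_const, Finset.card_univ]
      have := (Submodule.sum_mem _ (fun g _ => act_max g hc) :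
        (∑ g : G, ρ g (r - algebraMap k R c)) ∈ maximalIdeal R)
      rw [e] at this
      exact neg_mem_iff.1 this
    have hc0 : c = 0 := by
      by_contra hc0
      exact h1 ((IsUnit.mk0 _ (mul_ne_zero hNk hc0)).map (algebraMap k R))
    simpa [hc0] using hc
  let Gen : Set A := {a | ∃ r ∈ S, ∃ r' ∈ S, tr r = 0 ∧ tr r' = 0 ∧ a = tr (r * r')}
  have hle : Ideal.span Gen ≤ maximalIdeal A := by
    rw [Ideal.span_le]
    rintro _ ⟨r, _, r', _, h, -, rfl⟩
    exact trmax _ (Ideal.mul_mem_right _ _ (hzero r h))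
  have hinv : ∀ l, ∀ f ∈ Ideal.span Gen, C.d l f ∈ Ideal.span Gen := by
    intro l f hf
    induction hf using Submodule.span_induction with
    | mem a ha =>
      obtain ⟨r, hr, r', hr', h, h', rfl⟩ := ha
      rw [tr_δ l _ (mul_mem hr hr'), hmul l r hr r' hr', tr_add]
      refine add_mem (Ideal.subset_span ⟨r, hr, _, hmem l r' hr', h, ?_, rfl⟩)
        (Ideal.subset_span ⟨r', hr', _, hmem l r hr, h', ?_, rfl⟩)
      · rw [← tr_δ l r' hr', h', map_zero]
      · rw [← tr_δ l r hr, h, map_zero]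
    | zero => simp
    | add a b _ _ ha hb => rw [map_add]; exact add_mem ha hb
    | smul c a hca ha =>
      rw [smul_eq_mul, (C.d l).leibniz, smul_eq_mul, smul_eq_mul]
      exact add_mem (Ideal.mul_mem_left _ _ ha) (Ideal.mul_mem_right _ _ hca)
  have hbot := C.eq_bot_of_invariant _ hle hinv
  -- the trace-zero part of `s`
  set c0 : R := algebraMap k R (N : k)⁻¹ * algebraMap A R (tr s) with hc0
  suffices hsc : s = c0 by
    refine ⟨algebraMap k A (N : k)⁻¹ * tr s, ?_⟩
    rw [map_mul, ← IsScalarTower.algebraMap_apply]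
    exact hsc.symm
  have hAS : ∀ r ∈ S, algebraMap A R (tr r) ∈ S := fun r hr => by
    rw [htr]; exact Subalgebra.sum_mem _ (fun g _ => hS g r hr)
  have htrc : ∀ (a : A), tr (algebraMap k R (N : k)⁻¹ * algebraMap A R a) = a := fun a => H.inj (by
    rw [htr]
    simp only [map_mul, act_algk, AlgEquiv.commutes, Finset.sum_const, Finset.card_univ,
      nsmul_eq_mul, ← hN]
    rw [← mul_assoc, ← map_natCast (algebraMap k R), ← map_mul, mul_inv_cancel₀ hNk, map_one,
      one_mul])
  have tr_sub : ∀ a b, tr (a - b) = tr a - tr b := fun a b => H.inj (by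
    rw [map_sub, htr, htr, htr, ← Finset.sum_sub_distrib]; simp only [map_sub])
  set r := s - c0 with hr
  have hrS : r ∈ S := sub_mem hs (mul_mem (S.algebraMap_mem _) (hAS s hs))
  have hr0 : tr r = 0 := by rw [hr, tr_sub, hc0, htrc, sub_self]
  have hall : ∀ r' ∈ S, ∑ g : G, ρ g (r * r') = 0 := by
    intro r' hr'
    set c' : R := algebraMap k R (N : k)⁻¹ * algebraMap A R (tr r') with hc'
    have hr'S : r' - c' ∈ S := sub_mem hr' (mul_mem (S.algebraMap_mem _) (hAS r' hr'))
    have h1 : tr (r * (r' - c')) ∈ Ideal.span Gen :=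
      Ideal.subset_span ⟨r, hrS, r' - c', hr'S, hr0, by rw [tr_sub, hc', htrc, sub_self], rfl⟩
    rw [hbot, Ideal.mem_bot] at h1
    have h2 := congr_arg (algebraMap A R) h1
    rw [htr, map_zero] at h2
    rw [← h2]
    simp only [mul_sub, map_sub, Finset.sum_sub_distrib]
    suffices h3 : ∑ g : G, ρ g (r * c') = 0 by rw [h3, sub_zero]
    simp only [map_mul, hc', act_algk, AlgEquiv.commutes, ← Finset.sum_mul, ← htr, hr0, map_zero,
      zero_mul]
  rw [← sub_eq_zero, ← hr]
  by_contra hne
  let V : Finset R := (Finset.univ.image fun g : G => ρ g r).erase r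
  let h : R[X] := X * ∏ v ∈ V, (X - Polynomial.C v)
  have h1 : ∑ g : G, h.eval (ρ g r) = 0 := by
    simp only [eval_eq_sum_range]
    rw [Finset.sum_comm]
    refine Finset.sum_eq_zero (fun j _ => ?_)
    rcases Nat.eq_zero_or_pos j with rfl | hj
    · have hz : h.coeff 0 = 0 := by simp [h, Polynomial.coeff_zero_eq_eval_zero]
      simp [hz]
    · obtain ⟨i, rfl⟩ : ∃ i, j = i + 1 := ⟨j - 1, (Nat.sub_add_cancel hj).symm⟩
      rw [← Finset.mul_sum]
      have := hall (r ^ i) (pow_mem hrS i)
      simp only [← pow_succ', map_pow] at this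
      rw [this, mul_zero]
  have h2 : ∀ g : G, h.eval (ρ g r) = if ρ g r = r then h.eval r else 0 := fun g => by
    split
    · next e => rw [e]
    · next e =>
      simp only [h, eval_mul, eval_prod]
      exact mul_eq_zero_of_right _ (Finset.prod_eq_zero
        (Finset.mem_erase.2 ⟨e, Finset.mem_image.2 ⟨g, Finset.mem_univ _, rfl⟩⟩) (by simp))
  rw [Finset.sum_congr rfl (fun g _ => h2 g), ← Finset.sum_filter, Finset.sum_const, nsmul_eq_mul]
    at h1
  have h3 : ((Finset.univ.filter fun g : G => ρ g r = r).card : R) ≠ 0 := by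
    rw [← map_natCast (algebraMap k R), map_ne_zero_iff _ (algebraMap k R).injective,
      Nat.cast_ne_zero, Finset.card_ne_zero]
    exact ⟨1, by simp⟩
  refine mul_ne_zero h3 ?_ h1
  simp only [h, eval_mul, eval_prod, eval_X, eval_sub, eval_C]
  exact mul_ne_zero hne (Finset.prod_ne_zero_iff.2 (fun v hv =>
    sub_ne_zero.2 (Finset.ne_of_mem_erase hv).symm))

end Vale.Agent.P266.GC
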