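import Vale.Agent.P266.GC.Extend

/-! Uniformizers at the primes of the cover lying over prime elements of the base. -/

namespace Vale.Agent.P266.GC

open IsLocalRing Polynomial

/-- `π` is a uniformizer at the prime `P`. -/
structure Unif {R : Type*} [CommRing R] (P : Ideal R) (π : R) : Prop where
  prime : P.IsPrime
  mem : π ∈ P
  ne : π ≠ 0
  fac : ∀ x : R, x ≠ 0 → ∃ (m : ℕ) (t u : R), t ∉ P ∧ u ∉ P ∧ t * x = u * π ^ m

section pw

variable {R : Type*} [CommRing R] [IsDomain R] {P : Ideal R} {π : R}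

/-- Symbolic powers. -/
def Unif.pw (U : Unif P π) (m : ℕ) : Ideal R where
  carrier := {x | ∃ t ∉ P, π ^ m ∣ t * x}
  zero_mem' := ⟨1, fun h => U.prime.ne_top ((Ideal.eq_top_iff_one P).2 h), by simp⟩
  add_mem' := fun {a b} ⟨t, ht, ha⟩ ⟨s, hs, hb⟩ =>
    ⟨t * s, fun h => (U.prime.mem_or_mem h).elim ht hs, by
      rw [mul_add]
      exact dvd_add (by rw [mul_right_comm]; exact ha.mul_right s)
        (by rw [mul_assoc]; exact hb.mul_left t)⟩
  smul_mem' := fun c {a} ⟨t, ht, ha⟩ => ⟨t, ht, by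
    rw [smul_eq_mul, mul_left_comm]; exact ha.mul_left c⟩

/-- Exact order. -/
def Unif.eq (_U : Unif P π) (m : ℕ) (x : R) : Prop :=
  ∃ t u, t ∉ P ∧ u ∉ P ∧ t * x = u * π ^ m

variable (U : Unif P π)
include U

theorem Unif.mem_pw {m : ℕ} {x : R} : x ∈ U.pw m ↔ ∃ t ∉ P, π ^ m ∣ t * x := Iff.rfl

theorem Unif.one_notMem : (1 : R) ∉ P := fun h => U.prime.ne_top ((Ideal.eq_top_iff_one P).2 h)

theorem Unif.notMem_mul {a b : R} (ha : a ∉ P) (hb : b ∉ P) : a * b ∉ P :=
  fun h => (U.prime.mem_or_mem h).elim ha hb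

theorem Unif.pw_mono {m j : ℕ} (h : j ≤ m) : U.pw m ≤ U.pw j :=
  fun _ ⟨t, ht, hx⟩ => ⟨t, ht, (pow_dvd_pow π h).trans hx⟩

theorem Unif.pw_zero : U.pw 0 = ⊤ :=
  eq_top_iff.2 fun x _ => ⟨1, U.one_notMem, by simp⟩

theorem Unif.mul_mem_pw {a b : R} {i j : ℕ} (ha : a ∈ U.pw i) (hb : b ∈ U.pw j) :
    a * b ∈ U.pw (i + j) := by
  obtain ⟨t, ht, ha⟩ := ha
  obtain ⟨s, hs, hb⟩ := hb
  refine ⟨t * s, U.notMem_mul ht hs, ?_⟩
  rw [pow_add, mul_mul_mul_comm]
  exact mul_dvd_mul ha hb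

theorem Unif.prim {a x : R} {m : ℕ} (ha : a ∉ P) (h : a * x ∈ U.pw m) : x ∈ U.pw m := by
  obtain ⟨t, ht, h⟩ := h
  exact ⟨t * a, U.notMem_mul ht ha, by rwa [mul_assoc]⟩

theorem Unif.eq.mem {m : ℕ} {x : R} (h : U.eq m x) : x ∈ U.pw m := by
  obtain ⟨t, u, ht, _, h⟩ := h
  exact ⟨t, ht, Dvd.intro_left u h.symm⟩

theorem Unif.eq.not_mem {m : ℕ} {x : R} (h : U.eq m x) : x ∉ U.pw (m + 1) := by
  obtain ⟨t, u, ht, hu, h⟩ := h
  rintro ⟨s, hs, w, hw⟩
  have h1 : π ^ m * (s * u) = π ^ m * (t * w * π) := by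
    rw [pow_succ] at hw
    linear_combination t * hw - s * h
  have h2 := mul_left_cancel₀ (pow_ne_zero m U.ne) h1
  exact U.notMem_mul hs hu (h2 ▸ P.mul_mem_left _ U.mem)

theorem Unif.eq.ne_zero {m : ℕ} {x : R} (h : U.eq m x) : x ≠ 0 := fun e =>
  h.not_mem U (e ▸ zero_mem _)

theorem Unif.eq.le {m j : ℕ} {x : R} (h : U.eq m x) (hj : x ∈ U.pw j) : j ≤ m := by
  by_contra hc
  exact h.not_mem U (U.pw_mono (by omega) hj)

theorem Unif.eq.le' {m j : ℕ} {x : R} (h : U.eq m x) (hj : x ∉ U.pw (j + 1)) : m ≤ j := by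
  by_contra hc
  exact hj (U.pw_mono (by omega) (h.mem U))

theorem Unif.exists_eq {x : R} (hx : x ≠ 0) : ∃ m, U.eq m x :=
  let ⟨m, t, u, ht, hu, h⟩ := U.fac x hx
  ⟨m, t, u, ht, hu, h⟩

theorem Unif.eq_of_mem {m : ℕ} {x : R} (h : x ∈ U.pw m) (h' : x ∉ U.pw (m + 1)) : U.eq m x := by
  obtain ⟨j, hj⟩ := U.exists_eq (x := x) (fun e => h' (e ▸ zero_mem _))
  obtain rfl : j = m := le_antisymm (hj.le' U h') (hj.le U h)
  exact hj

theorem Unif.eq_zero_iff {x : R} : U.eq 0 x ↔ x ∉ P := by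
  constructor
  · rintro ⟨t, u, ht, hu, h⟩ hx
    rw [pow_zero, mul_one] at h
    exact hu (h ▸ P.mul_mem_left t hx)
  · exact fun hx => ⟨1, x, U.one_notMem, hx, by simp⟩

theorem Unif.pw_one : U.pw 1 = P := by
  ext x
  refine ⟨fun ⟨t, ht, w, hw⟩ => (U.prime.mem_or_mem ?_).resolve_left ht, fun hx => ?_⟩
  · rw [hw, pow_one]; exact P.mul_mem_right _ U.mem
  · by_contra h
    exact U.eq_zero_iff.1 (U.eq_of_mem (by rw [U.pw_zero]; trivial) h) hx

theorem Unif.eq_self : U.eq 1 π := ⟨1, 1, U.one_notMem, U.one_notMem, by simp⟩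

theorem Unif.eq.mul {i j : ℕ} {a b : R} (ha : U.eq i a) (hb : U.eq j b) :
    U.eq (i + j) (a * b) := by
  obtain ⟨t, u, ht, hu, ha⟩ := ha
  obtain ⟨s, v, hs, hv, hb⟩ := hb
  exact ⟨t * s, u * v, U.notMem_mul ht hs, U.notMem_mul hu hv, by
    rw [mul_mul_mul_comm, ha, hb, pow_add]; ring⟩

theorem Unif.eq.add {m : ℕ} {a b : R} (ha : U.eq m a) (hb : b ∈ U.pw (m + 1)) :
    U.eq m (a + b) :=
  U.eq_of_mem (add_mem (ha.mem U) (U.pw_mono (Nat.le_succ m) hb))
    (fun h => ha.not_mem U (by simpa using sub_mem h hb))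

theorem Unif.eq_pow (m : ℕ) : U.eq m (π ^ m) := ⟨1, 1, U.one_notMem, U.one_notMem, by simp⟩

theorem Unif.eq_zero_of_forall {x : R} (h : ∀ m, x ∈ U.pw m) : x = 0 := by
  by_contra hx
  obtain ⟨m, hm⟩ := U.exists_eq hx
  exact hm.not_mem U (h _)

variable {k : Type*} [Field k] [CharZero k] [Algebra k R] (δ : Derivation k R R)

theorem Unif.der_mem {μ : ℕ} (hμ : ∀ r, δ r ∈ U.pw μ) {m : ℕ} {x : R}
    (hx : x ∈ U.pw (m + 1)) : δ x ∈ U.pw (μ + m) := by
  have hx' := hx
  obtain ⟨t, ht, w, hw⟩ := hx'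
  refine U.prim ht ?_
  have e : t * δ x = δ (π ^ (m + 1) * w) - x * δ t := by
    rw [← hw, δ.leibniz, smul_eq_mul, smul_eq_mul]; ring
  have hp : ∀ j, π ^ j ∈ U.pw j := fun j => (U.eq_pow j).mem U
  rw [e, δ.leibniz, δ.leibniz_pow, smul_eq_mul, smul_eq_mul, nsmul_eq_mul, smul_eq_mul,
    Nat.add_sub_cancel]
  refine sub_mem (add_mem ?_ ?_) ?_
  · exact U.pw_mono (by omega) (U.mul_mem_pw (hp (m + 1)) (hμ w))
  · refine Ideal.mul_mem_left _ _ (Ideal.mul_mem_left _ _ ?_)
    rw [Nat.add_comm μ m]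
    exact U.mul_mem_pw (hp m) (hμ π)
  · exact U.pw_mono (by omega) (U.mul_mem_pw hx (hμ t))

omit [IsDomain R] U [CharZero k] in
theorem natCast_notMem [CharZero k] {j : ℕ} (hj : j ≠ 0) (hP : P.IsPrime) : (j : R) ∉ P := fun h =>
  hP.ne_top (P.eq_top_of_isUnit_mem h (by
    have : IsUnit ((j : k)) := IsUnit.mk0 _ (Nat.cast_ne_zero.2 hj)
    simpa using this.map (algebraMap k R)))

theorem Unif.der_eq {μ : ℕ} (hμ : ∀ r, δ r ∈ U.pw μ) (hπ : U.eq μ (δ π)) {m : ℕ} {x : R}
    (hx : U.eq (m + 1) x) : U.eq (μ + m) (δ x) := by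
  have hx' := hx
  obtain ⟨t, u, ht, hu, h⟩ := hx'
  have e : t * δ x = (u * (m + 1 : ℕ)) * π ^ m * δ π + (π ^ (m + 1) * δ u - x * δ t) := by
    have := congr_arg δ h
    rw [δ.leibniz, δ.leibniz, δ.leibniz_pow, smul_eq_mul, smul_eq_mul, smul_eq_mul, smul_eq_mul,
      nsmul_eq_mul, smul_eq_mul, Nat.add_sub_cancel] at this
    linear_combination this
  have h1 : U.eq (0 + m + μ) ((u * (m + 1 : ℕ)) * π ^ m * δ π) :=
    ((U.eq_zero_iff.2 (U.notMem_mul hu (natCast_notMem (k := k) (by omega) U.prime))).mul U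
      (U.eq_pow m)).mul U hπ
  rw [zero_add, Nat.add_comm m μ] at h1
  have h2 : π ^ (m + 1) * δ u - x * δ t ∈ U.pw (μ + m + 1) :=
    U.pw_mono (by omega) (sub_mem (U.mul_mem_pw ((U.eq_pow (m + 1)).mem U) (hμ u))
      (U.mul_mem_pw (hx.mem U) (hμ t)))
  have h3 := h1.add U h2
  rw [← e] at h3
  exact U.eq_of_mem (U.prim ht (h3.mem U)) (fun hh => h3.not_mem U (Ideal.mul_mem_left _ _ hh))

end pw

variable {k A R G : Type*} [Field k] [CharZero k] [CommRing A] [IsDomain A]
  [UniqueFactorizationMonoid A] [Algebra k A] [CommRing R] [IsDomain R] [IsIntegrallyClosed R]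
  [IsNoetherianRing R] [Algebra k R] [Algebra A R] [IsScalarTower k A R] [Algebra.IsIntegral A R]
  [Group G] [Fintype G] {ρ : G →* (R ≃ₐ[A] R)}

theorem exists_unif (hinj : Function.Injective (algebraMap A R)) {p : A} (hp : Prime p)
    (P : Ideal R) [P.IsPrime] (hP : P.comap (algebraMap A R) = Ideal.span {p}) :
    ∃ π, Unif P π := by
  let O := Localization.AtPrime P
  haveI : IsIntegrallyClosed O :=
    isIntegrallyClosed_of_isLocalization O P.primeCompl P.primeCompl_le_nonZeroDivisors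
  haveI : IsNoetherianRing O := IsLocalization.isNoetherianRing P.primeCompl O inferInstance
  have hne : algebraMap A R p ≠ 0 := (map_ne_zero_iff _ hinj).2 hp.ne_zero
  have hmem : algebraMap A R p ∈ P := by
    change p ∈ P.comap (algebraMap A R)
    rw [hP]; exact Ideal.mem_span_singleton_self p
  have hinjO : Function.Injective (algebraMap R O) :=
    IsLocalization.injective O P.primeCompl_le_nonZeroDivisors
  have hdim : ∀ Q : Ideal O, Q ≠ ⊥ → Q.IsPrime → Q = maximalIdeal O := by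
    intro Q hQ hQp
    set q := Q.comap (algebraMap R O)
    have hqP : q ≤ P := by
      rw [← IsLocalization.AtPrime.comap_maximalIdeal O P]
      exact Ideal.comap_mono (le_maximalIdeal hQp.ne_top)
    haveI : q.IsPrime := Ideal.IsPrime.comap _
    have hq : q ≠ ⊥ := fun e => hQ (by
      rw [← IsLocalization.map_comap P.primeCompl O Q]
      change Ideal.map _ q = ⊥
      rw [e, Ideal.map_bot])
    obtain ⟨x, hx, hx0⟩ := Submodule.exists_mem_ne_zero_of_ne_bot hq
    have hqA : q.comap (algebraMap A R) ≠ ⊥ :=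
      Ideal.comap_ne_bot_of_integral_mem hx0 hx (Algebra.IsIntegral.isIntegral x)
    obtain ⟨p', hp'q, hp'⟩ :=
      Ideal.IsPrime.exists_mem_prime_of_ne_bot (Ideal.IsPrime.comap _) hqA
    have hle : q.comap (algebraMap A R) ≤ Ideal.span {p} := hP ▸ Ideal.comap_mono hqP
    have hassoc : Associated p p' :=
      (hp.dvd_prime_iff_associated hp').1 (Ideal.mem_span_singleton.1 (hle hp'q))
    have heq : q = P := by
      by_contra hneq
      obtain ⟨y, hyP, hyq⟩ := SetLike.exists_of_lt (lt_of_le_of_ne hqP hneq)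
      have hlt := Ideal.comap_lt_comap_of_integral_mem_sdiff (R := A) hqP ⟨hyP, hyq⟩
        (Algebra.IsIntegral.isIntegral y)
      rw [hP, Ideal.span_singleton_eq_span_singleton.2 hassoc] at hlt
      exact hlt.not_ge (Ideal.span_le.2 (Set.singleton_subset_iff.2 hp'q))
    rw [← IsLocalization.map_comap P.primeCompl O Q]
    change Ideal.map _ q = _
    rw [heq, Localization.AtPrime.map_eq_maximalIdeal]
  have hnf : ¬ IsField O := by
    intro hF
    have h1 : algebraMap R O (algebraMap A R p) ∈ maximalIdeal O := by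
      rw [← Localization.AtPrime.map_eq_maximalIdeal]; exact Ideal.mem_map_of_mem _ hmem
    rw [(IsLocalRing.isField_iff_maximalIdeal_eq).1 hF, Ideal.mem_bot] at h1
    exact hne (hinjO (h1.trans (map_zero _).symm))
  have hprin : (maximalIdeal O).IsPrincipal :=
    (show (IsIntegrallyClosed O ∧ ∀ Q : Ideal O, Q ≠ ⊥ → Q.IsPrime → Q = maximalIdeal O) ↔
        (maximalIdeal O).IsPrincipal from
      (tfae_of_isNoetherianRing_of_isLocalRing_of_isDomain (R := O)).out 3 4).1
      ⟨inferInstance, hdim⟩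
  haveI : IsDiscreteValuationRing O :=
    ((IsDiscreteValuationRing.TFAE O hnf).out 4 0).1 hprin
  obtain ⟨ϖ, hϖ⟩ := IsDiscreteValuationRing.exists_irreducible O
  obtain ⟨π, s, hπs⟩ := IsLocalization.exists_mk'_eq P.primeCompl ϖ
  have hsu : IsUnit (algebraMap R O (s : R)) := IsLocalization.map_units O s
  have hπϖ : algebraMap R O π = ϖ * algebraMap R O (s : R) := by
    rw [← hπs, IsLocalization.mk'_spec]
  have hirr : Irreducible (algebraMap R O π) := by
    rw [hπϖ]; exact (irreducible_mul_isUnit hsu).2 hϖ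
  refine ⟨π, inferInstance, ?_, fun e => hirr.ne_zero (by rw [e, map_zero]), fun x hx => ?_⟩
  · rw [← IsLocalization.AtPrime.comap_maximalIdeal O P, Ideal.mem_comap]
    exact hirr.not_isUnit
  · obtain ⟨m, v, hv⟩ := IsDiscreteValuationRing.eq_unit_mul_pow_irreducible
      ((map_ne_zero_iff _ hinjO).2 hx) hirr
    obtain ⟨u, t, hut⟩ := IsLocalization.exists_mk'_eq P.primeCompl (v : O)
    refine ⟨m, t, u, t.2, ?_, hinjO ?_⟩
    · intro hu
      have h1 : algebraMap R O u ∈ maximalIdeal O := by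
        rw [← Localization.AtPrime.map_eq_maximalIdeal]; exact Ideal.mem_map_of_mem _ hu
      rw [← IsLocalization.mk'_spec O u t, hut] at h1
      exact h1 (v.isUnit.mul (IsLocalization.map_units O t))
    · rw [map_mul, map_mul, map_pow, hv, ← IsLocalization.mk'_spec O u t, hut]
      ring

/-- Divisibility by a prime power of the base is tested at the primes over it. -/
theorem Cov.dvd_of_local (H : Cov ρ) {p : A} (hp : Prime p) (v : ℕ) (x : R)
    (h : ∀ P : Ideal R, P.IsPrime → P.comap (algebraMap A R) = Ideal.span {p} →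
      ∃ t ∉ P, algebraMap A R (p ^ v) ∣ t * x) :
    algebraMap A R (p ^ v) ∣ x := by
  classical
  set a := algebraMap A R (p ^ v) with ha
  have ha0 : a ≠ 0 := (map_ne_zero_iff _ H.inj).2 (pow_ne_zero v hp.ne_zero)
  let J : Ideal R := (Ideal.span {a}).colon {x}
  have hJ : ∀ t : R, t ∈ J ↔ a ∣ t * x := fun t => by
    simp [J, Submodule.mem_colon_singleton, Ideal.mem_span_singleton]
  obtain ⟨t, ht, htp⟩ : ∃ t : A, a ∣ algebraMap A R t * x ∧ ¬ p ∣ t := by
    by_contra hne
    push Not at hne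
    have hle : J.comap (algebraMap A R) ≤ Ideal.span {p} := fun s hs =>
      Ideal.mem_span_singleton.2 (hne s ((hJ _).1 hs))
    haveI : (Ideal.span {p}).IsPrime := (Ideal.span_singleton_prime hp.ne_zero).2 hp
    obtain ⟨Q, hQ, hQp, hQc⟩ := Ideal.exists_ideal_over_prime_of_isIntegral (Ideal.span {p}) J hle
    obtain ⟨t, htQ, ht⟩ := h Q hQp hQc
    exact htQ (hQ ((hJ t).2 ht))
  obtain ⟨y, hy⟩ := ht
  let fR : R → R[X] := fun z => ∏ g : G, (X - C (ρ g z))
  have hlift : ∀ z, ∃ q : A[X], q.map (algebraMap A R) = fR z := fun z => H.lift_poly _ (fun h => by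
    simp only [fR, Polynomial.map_prod, Polynomial.map_sub, map_X, map_C]
    exact Fintype.prod_equiv (Equiv.mulLeft h) _ _ (fun g => by
      simp only [Equiv.coe_mulLeft, RingHom.coe_coe, act_act]))
  obtain ⟨fx, hfx⟩ := hlift x
  obtain ⟨fy, hfy⟩ := hlift y
  have hN : ∀ z, (fR z).natDegree = Fintype.card G ∧ (fR z).Monic := fun z =>
    ⟨by simp [fR], monic_prod_X_sub_C _ _⟩
  have hNx : fx.natDegree = Fintype.card G := by
    rw [← natDegree_map_eq_of_injective H.inj, hfx, (hN x).1]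
  have hNy : fy.natDegree = Fintype.card G := by
    rw [← natDegree_map_eq_of_injective H.inj, hfy, (hN y).1]
  have hmx : fx.Monic := monic_of_injective H.inj (by rw [hfx]; exact (hN x).2)
  have hsc : fx.scaleRoots t = fy.scaleRoots (p ^ v) := by
    refine Polynomial.map_injective _ H.inj ?_
    rw [map_scaleRoots _ _ _ (by rw [hmx, map_one]; exact one_ne_zero),
      map_scaleRoots _ _ _ (by
        rw [monic_of_injective H.inj (by rw [hfy]; exact (hN y).2), map_one]; exact one_ne_zero),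
      hfx, hfy, ← ha]
    have key : ∀ (z s : R) (S : Finset G), (∏ g ∈ S, (X - C (ρ g z))).scaleRoots s
        = ∏ g ∈ S, (X - C (s * ρ g z)) := by
      intro z s S
      induction S using Finset.induction_on with
      | empty => simp [one_scaleRoots]
      | insert g S hg ih =>
        rw [Finset.prod_insert hg, Finset.prod_insert hg, mul_scaleRoots_of_noZeroDivisors, ih]
        congr 1
        rw [X_sub_C_scaleRoots, mul_comm]
    simp only [fR, key]
    refine Finset.prod_congr rfl (fun g _ => ?_)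
    congr 2
    have := congr_arg (ρ g) hy
    simpa [ha, map_mul] using this
  have hcoef : ∀ j, ∃ c : A, fx.coeff j = (p ^ v) ^ (Fintype.card G - j) * c := by
    intro j
    have h1 := congr_arg (fun q => Polynomial.coeff q j) hsc
    simp only [coeff_scaleRoots, hNx, hNy] at h1
    rw [← pow_mul] at h1 ⊢
    exact hp.pow_dvd_of_dvd_mul_right _ (fun hd => htp (hp.dvd_of_dvd_pow hd)) ⟨fy.coeff j, by
      rw [h1, mul_comm]⟩
  choose c hc using hcoef
  let fz : A[X] := ∑ j ∈ Finset.range (Fintype.card G + 1), monomial j (c j)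
  let L := FractionRing R
  let xL : L := algebraMap R L x
  let aL : L := algebraMap R L a
  have haL : aL ≠ 0 := (map_ne_zero_iff _ (IsFractionRing.injective R L)).2 ha0
  let φ : A →+* L := (algebraMap R L).comp (algebraMap A R)
  have hfzc : ∀ j, fz.coeff j = if j ≤ Fintype.card G then c j else 0 := fun j => by
    simp [fz, finset_sum_coeff, coeff_monomial, Nat.lt_succ_iff]
  have hzm : fz.Monic := by
    refine monic_of_natDegree_le_of_coeff_eq_one (Fintype.card G) ?_ ?_
    · refine natDegree_le_iff_coeff_eq_zero.2 (fun j hj => ?_)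
      rw [hfzc, if_neg (by omega)]
    · rw [hfzc, if_pos le_rfl]
      have := hc (Fintype.card G)
      rw [← hNx, hmx.coeff_natDegree, hNx, Nat.sub_self, pow_zero, one_mul] at this
      exact this.symm
  have hzd : fz.natDegree = Fintype.card G := by
    refine le_antisymm (natDegree_le_iff_coeff_eq_zero.2 (fun j hj => ?_)) ?_
    · rw [hfzc, if_neg (by omega)]
    · refine le_natDegree_of_ne_zero ?_
      rw [hfzc, if_pos le_rfl]
      have := hc (Fintype.card G)
      rw [← hNx, hmx.coeff_natDegree, hNx, Nat.sub_self, pow_zero, one_mul] at this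
      rw [← this]
      exact one_ne_zero
  have hzs : fz.scaleRoots (p ^ v) = fx := by
    ext j
    rw [coeff_scaleRoots, hzd, hfzc]
    split
    · rw [hc j, mul_comm]
    · next hj =>
      rw [zero_mul, coeff_eq_zero_of_natDegree_lt (by omega)]
  have hev : fz.eval₂ φ (xL / aL) = 0 := by
    have h1 := scaleRoots_eval₂_mul (p := fz) φ (xL / aL) (p ^ v)
    rw [hzs] at h1
    have h2 : φ (p ^ v) * (xL / aL) = xL := by
      change aL * (xL / aL) = xL
      exact mul_div_cancel₀ _ haL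
    have h3 : fx.eval₂ φ xL = 0 := by
      simp only [φ, xL]
      rw [← eval₂_map, hfx, eval₂_at_apply, eval_prod,
        Finset.prod_eq_zero (Finset.mem_univ (1 : G)) (by simp), map_zero]
    rw [h2, h3] at h1
    exact (mul_eq_zero.1 h1.symm).resolve_left (pow_ne_zero _ haL)
  have hint : IsIntegral R (xL / aL) :=
    ⟨fz.map (algebraMap A R), hzm.map _, by rw [eval₂_map]; exact hev⟩
  obtain ⟨w, hw⟩ := IsIntegrallyClosed.algebraMap_eq_of_integral hint
  refine ⟨w, IsFractionRing.injective R L ?_⟩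
  rw [map_mul, hw]
  change xL = aL * (xL / aL)
  exact (mul_div_cancel₀ _ haL).symm

end Vale.Agent.P266.GC
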